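import Vale.Agent.P111.QL.Defs
import Vale.Agent.P111.L1.Defs

/-! Definitions used in the statement of `A0Approx`. -/

namespace Vale.Agent.N111

open Vale.Agent.P111

/-- The approximation property (no bound on the norms of the finite rank maps). -/
def HasAP (X : Type*) [NormedAddCommGroup X] [NormedSpace ℝ X] : Prop :=
  ∀ M : Set X, IsCompact M → ∀ δ : ℝ, 0 < δ →
    ∃ S : X →L[ℝ] X, FiniteDimensional ℝ (LinearMap.range (S : X →ₗ[ℝ] X)) ∧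
      ∀ x ∈ M, ‖S x - x‖ < δ

/-- `V` is a limit of finite rank operators, uniformly on compact sets. -/
def Approximable {X Y : Type*} [NormedAddCommGroup X] [NormedSpace ℝ X] [NormedAddCommGroup Y]
    [NormedSpace ℝ Y] (V : X →L[ℝ] Y) : Prop :=
  ∀ M : Set X, IsCompact M → ∀ δ : ℝ, 0 < δ →
    ∃ S : X →L[ℝ] Y, FiniteDimensional ℝ (LinearMap.range (S : X →ₗ[ℝ] Y)) ∧
      ∀ x ∈ M, ‖S x - V x‖ < δ

/-- The space `ℓ₁^s`. -/
abbrev L1s (s : ℕ) : Type := PiLp 1 fun _ : Fin s => ℝ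

/-- `X` has `s`-dimensional subspaces whose Banach-Mazur distance to `ℓ₁^s` is bounded
independently of `s`. -/
def ContainsL1 (X : Type*) [NormedAddCommGroup X] [NormedSpace ℝ X] : Prop :=
  ∃ D : ℝ, ∀ s : ℕ, ∃ (E : Submodule ℝ X) (T : E ≃L[ℝ] L1s s),
    ‖(T : E →L[ℝ] L1s s)‖ * ‖(T.symm : L1s s →L[ℝ] E)‖ ≤ D

/-- `‖Rad ⊗ V‖ ≤ K` on `L₂` of every discrete cube. -/
def OpKConvexWith {X Y : Type*} [NormedAddCommGroup X] [NormedSpace ℝ X] [NormedAddCommGroup Y]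
    [NormedSpace ℝ Y] (K : ℝ) (V : X →L[ℝ] Y) : Prop :=
  ∀ (n : ℕ) (f : (Fin n → ℤˣ) → X),
    (avg fun ε => ‖V (rad f ε)‖ ^ 2) ^ (1 / 2 : ℝ) ≤ K * (avg fun ε => ‖f ε‖ ^ 2) ^ (1 / 2 : ℝ)

/-- The operator `V` has type `p` with constant `T`. -/
def OpTypeWith {X Y : Type*} [NormedAddCommGroup X] [NormedSpace ℝ X] [NormedAddCommGroup Y]
    [NormedSpace ℝ Y] (p T : ℝ) (V : X →L[ℝ] Y) : Prop :=
  ∀ (n : ℕ) (x : Fin n → X),
    (avg fun ε : Fin n → ℤˣ => ‖∑ i, sg (ε i) • V (x i)‖ ^ 2) ^ (1 / 2 : ℝ) ≤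
      T * (∑ i, ‖x i‖ ^ p) ^ (1 / p)

end Vale.Agent.N111
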