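import Vale.Agent.N111.Bidual
import Vale.Agent.N111.Defs

/-!
From the operator theorem to approximable operators, by duality and iteration.
-/

set_option linter.unusedSectionVars false

namespace Vale.Agent.N111

open Finset Vale.Agent.P111 Vale.Agent.P111.HM TensorProduct

universe u v

/-- A separation lemma for cost relations. -/
theorem exists_dec {E : Type*} [AddCommGroup E] [Module ℝ E] (Dec : E → ℝ → Prop)
    (hadd : ∀ t t' R R', Dec t R → Dec t' R' → Dec (t + t') (R + R'))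
    (hsmul : ∀ (c : ℝ) t R, Dec t R → Dec (c • t) (|c| * R))
    (hpos : ∀ t R, Dec t R → 0 ≤ R) (htot : ∀ t, ∃ R, Dec t R) (t₀ : E) {B : ℝ}
    (h : ∀ φ : E →ₗ[ℝ] ℝ, (∀ t R, Dec t R → |φ t| ≤ R) → φ t₀ ≤ B) {B' : ℝ} (hB : B < B') :
    ∃ R, R < B' ∧ Dec t₀ R := by
  set N : E → ℝ := fun t => sInf {R | Dec t R} with hN
  have hbdd : ∀ t, BddBelow {R | Dec t R} := fun t => ⟨0, fun R hR => hpos t R hR⟩
  have hne : ∀ t, {R | Dec t R}.Nonempty := htot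
  have hle : ∀ t R, Dec t R → N t ≤ R := fun t R hR => csInf_le (hbdd t) hR
  have hN0 : ∀ t, 0 ≤ N t := fun t => le_csInf (hne t) fun R hR => hpos t R hR
  have hNadd : ∀ x y, N (x + y) ≤ N x + N y := by
    intro x y
    have h1 : ∀ R', Dec y R' → N (x + y) - R' ≤ N x := by
      intro R' hR'
      refine le_csInf (hne x) fun R hR => ?_
      have := hle _ _ (hadd _ _ _ _ hR hR')
      linarith
    have h2 : N (x + y) - N x ≤ N y := by
      refine le_csInf (hne y) fun R' hR' => ?_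
      have := h1 R' hR'
      linarith
    linarith
  have hNle : ∀ c : ℝ, 0 < c → ∀ x, N (c • x) ≤ c * N x := by
    intro c hc x
    rw [← div_le_iff₀' hc]
    refine le_csInf (hne x) fun R hR => ?_
    rw [div_le_iff₀' hc]
    have := hle _ _ (hsmul c _ _ hR)
    rwa [abs_of_pos hc] at this
  have hNhom : ∀ c : ℝ, 0 < c → ∀ x, N (c • x) = c * N x := by
    intro c hc x
    refine le_antisymm (hNle c hc x) ?_
    have h1 := hNle c⁻¹ (inv_pos.mpr hc) (c • x)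
    rw [smul_smul, inv_mul_cancel₀ hc.ne', one_smul] at h1
    rwa [le_inv_mul_iff₀ hc] at h1
  have hNz : N 0 = 0 := by
    have h1 := hNhom 2 two_pos 0
    rw [smul_zero] at h1
    linarith
  let f : E →ₗ.[ℝ] ℝ := LinearPMap.mkSpanSingleton' (σ := RingHom.id ℝ) t₀ (N t₀) (by
    intro c hc
    rcases smul_eq_zero.mp hc with h1 | h1
    · rw [h1]; simp
    · rw [h1, hNz, smul_zero])
  obtain ⟨φ, hφ1, hφ2⟩ := exists_extension_of_le_sublinear f N hNhom hNadd (by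
    rintro ⟨x, hx⟩
    obtain ⟨c, rfl⟩ := Submodule.mem_span_singleton.mp hx
    have h1 : f ⟨c • t₀, hx⟩ = c • N t₀ := LinearPMap.mkSpanSingleton'_apply _ _ _ c hx
    rw [h1, smul_eq_mul]
    rcases lt_or_ge 0 c with hc | hc
    · exact (hNhom c hc t₀).ge
    · exact (mul_nonpos_of_nonpos_of_nonneg hc (hN0 t₀)).trans (hN0 _))
  have h2 : φ t₀ = N t₀ := by
    have h3 := hφ1 ⟨t₀, Submodule.mem_span_singleton_self t₀⟩
    rw [h3]
    exact LinearPMap.mkSpanSingleton'_apply_self _ _ _ _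
  have h4 := h φ (fun t R hR => by
    rw [abs_le]
    have h5 := (hφ2 (-t)).trans (hle _ _ (by simpa using hsmul (-1) t R hR))
    rw [map_neg] at h5
    exact ⟨by linarith, (hφ2 t).trans (hle t R hR)⟩)
  rw [h2] at h4
  obtain ⟨R, hR1, hR2⟩ := exists_lt_of_csInf_lt (hne t₀) (lt_of_le_of_lt h4 hB)
  exact ⟨R, hR2, hR1⟩

/-- Null sequences of finite sets give compact sets. -/
theorem isCompact_levels {X : Type*} [NormedAddCommGroup X] (M : ℕ → Set X)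
    (hfin : ∀ n, (M n).Finite) (hM : ∀ n, ∀ x ∈ M n, ‖x‖ ≤ (1 / 2) ^ n) :
    IsCompact (insert 0 (⋃ n, M n)) := by
  rw [isCompact_iff_ultrafilter_le_nhds]
  intro F hF
  by_cases h0 : (F : Filter X) ≤ nhds 0
  · exact ⟨0, Set.mem_insert _ _, h0⟩
  · have h1 : ∃ ε : ℝ, 0 < ε ∧ Metric.ball (0:X) ε ∉ F := by
      by_contra hcon
      push Not at hcon
      exact h0 ((Metric.nhds_basis_ball.ge_iff).mpr hcon)
    obtain ⟨ε, hε, hεF⟩ := h1
    obtain ⟨n₀, hn₀⟩ := exists_pow_lt_of_lt_one hε (by norm_num : (1 / 2 : ℝ) < 1)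
    have h2 : (Metric.ball (0:X) ε)ᶜ ∈ F := Ultrafilter.compl_mem_iff_notMem.mpr hεF
    have h3 : insert 0 (⋃ n, M n) ∈ F := Filter.le_principal_iff.mp hF
    set K : Set X := ⋃ n ∈ Set.Iio n₀, M n with hK
    have hKfin : K.Finite := (Set.finite_Iio n₀).biUnion fun n _ => hfin n
    have h4 : K ∈ F := by
      refine Filter.mem_of_superset (Filter.inter_mem h2 h3) ?_
      rintro x ⟨hx1, hx2⟩
      rw [Set.mem_compl_iff, mem_ball_zero_iff, not_lt] at hx1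
      rcases hx2 with rfl | hx2
      · rw [norm_zero] at hx1
        linarith
      · obtain ⟨n, hn⟩ := Set.mem_iUnion.mp hx2
        refine Set.mem_biUnion (x := n) ?_ hn
        rw [Set.mem_Iio]
        by_contra hcon
        rw [not_lt] at hcon
        have h5 : (1 / 2 : ℝ) ^ n ≤ (1 / 2) ^ n₀ :=
          pow_le_pow_of_le_one (by norm_num) (by norm_num) hcon
        have := hM n x hn
        linarith
    obtain ⟨x, hx1, hx2⟩ := isCompact_iff_ultrafilter_le_nhds.mp hKfin.isCompact F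
      (Filter.le_principal_iff.mpr h4)
    obtain ⟨n, -, hn⟩ := Set.mem_iUnion₂.mp hx1
    exact ⟨x, Set.mem_insert_of_mem _ (Set.mem_iUnion.mpr ⟨n, hn⟩), hx2⟩

section

variable {X Y : Type*} [NormedAddCommGroup X] [NormedSpace ℝ X] [NormedAddCommGroup Y]
  [NormedSpace ℝ Y]

/-- The pairing between operators and tensors. -/
noncomputable def pr (U : X →L[ℝ] Y) : (X ⊗[ℝ] (Y →L[ℝ] ℝ)) →ₗ[ℝ] ℝ :=
  TensorProduct.lift (LinearMap.mk₂ ℝ (fun (x : X) (ξ : Y →L[ℝ] ℝ) => ξ (U x))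
    (fun x x' ξ => by simp) (fun c x ξ => by simp) (fun x ξ ξ' => by simp)
    (fun c x ξ => by simp))

theorem pr_tmul (U : X →L[ℝ] Y) (x : X) (ξ : Y →L[ℝ] ℝ) : pr U (x ⊗ₜ[ℝ] ξ) = ξ (U x) := by
  simp [pr]

theorem pr_sub (U U' : X →L[ℝ] Y) (t : X ⊗[ℝ] (Y →L[ℝ] ℝ)) :
    pr (U - U') t = pr U t - pr U' t := by
  have h : pr (U - U') = pr U - pr U' := by
    refine TensorProduct.ext' fun x ξ => ?_
    simp [pr_tmul]
  rw [h, LinearMap.sub_apply]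

/-- The tensor attached to a multiplier and two functions. -/
noncomputable def ten {I : Type} [Fintype I] [DecidableEq I] (m : Finset I → ℝ)
    (f : (I → ℤˣ) → X) (g : (I → ℤˣ) → (Y →L[ℝ] ℝ)) : X ⊗[ℝ] (Y →L[ℝ] ℝ) :=
  ∑ A : Finset I, m A • (wc A f ⊗ₜ[ℝ] wc A g)

theorem map_ten {I : Type} [Fintype I] [DecidableEq I] (φ : (X ⊗[ℝ] (Y →L[ℝ] ℝ)) →ₗ[ℝ] ℝ)
    (m : Finset I → ℝ) (f : (I → ℤˣ) → X) (g : (I → ℤˣ) → (Y →L[ℝ] ℝ)) :
    φ (ten m f g) = ∑ A : Finset I, m A * φ (wc A f ⊗ₜ[ℝ] wc A g) := by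
  simp only [ten, map_sum, map_smul, smul_eq_mul]

/-- The functional `φ` is bounded by `A` on the atoms. -/
def AtomBd (ρ : ℝ) (φ : (X ⊗[ℝ] (Y →L[ℝ] ℝ)) →ₗ[ℝ] ℝ) (A : ℝ) : Prop :=
  ∀ (I : Type) [Fintype I] [DecidableEq I] (L : Type) [DecidableEq L] (s : Finset L) (c : I → L)
    (f : (I → ℤˣ) → X) (g : (I → ℤˣ) → (Y →L[ℝ] ℝ)),
    |φ (ten (pm s c) f g)| ≤ A * ρ ^ #s * (nrm f * nrm g)

/-- The cost with respect to the atoms. -/
def AlB (ρ : ℝ) (t : X ⊗[ℝ] (Y →L[ℝ] ℝ)) (b : ℝ) : Prop :=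
  ∀ (φ : (X ⊗[ℝ] (Y →L[ℝ] ℝ)) →ₗ[ℝ] ℝ) (A : ℝ), 0 ≤ A → AtomBd ρ φ A → |φ t| ≤ A * b

/-- The projective cost. -/
def PiB (t : X ⊗[ℝ] (Y →L[ℝ] ℝ)) (a : ℝ) : Prop :=
  ∃ M : Set X, M.Finite ∧ (∀ x ∈ M, ‖x‖ ≤ 1) ∧
    ∀ (U : X →L[ℝ] Y) (η : ℝ), 0 ≤ η → (∀ x ∈ M, ‖U x‖ ≤ η) → |pr U t| ≤ η * a

variable {ρ : ℝ} {t t' : X ⊗[ℝ] (Y →L[ℝ] ℝ)}

theorem AlB.mono {b b' : ℝ} (h : AlB ρ t b) (hb : b ≤ b') : AlB ρ t b' :=
  fun φ A hA hφ => (h φ A hA hφ).trans (mul_le_mul_of_nonneg_left hb hA)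

theorem AlB.add {b b' : ℝ} (h : AlB ρ t b) (h' : AlB ρ t' b') : AlB ρ (t + t') (b + b') := by
  intro φ A hA hφ
  rw [map_add, mul_add]
  exact (abs_add_le _ _).trans (add_le_add (h φ A hA hφ) (h' φ A hA hφ))

theorem AlB.smul {b : ℝ} (h : AlB ρ t b) (c : ℝ) : AlB ρ (c • t) (|c| * b) := by
  intro φ A hA hφ
  rw [map_smul, smul_eq_mul, abs_mul, mul_left_comm]
  exact mul_le_mul_of_nonneg_left (h φ A hA hφ) (abs_nonneg c)

theorem alB_zero : AlB ρ (0 : X ⊗[ℝ] (Y →L[ℝ] ℝ)) 0 := by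
  intro φ A _ _
  simp

theorem alB_ten {I : Type} [Fintype I] [DecidableEq I] {L : Type} [DecidableEq L] (s : Finset L)
    (c : I → L) (f : (I → ℤˣ) → X) (g : (I → ℤˣ) → (Y →L[ℝ] ℝ)) :
    AlB ρ (ten (pm s c) f g) (ρ ^ #s * (nrm f * nrm g)) := by
  intro φ A _ hφ
  rw [← mul_assoc]
  exact hφ I L s c f g

theorem PiB.mono {a a' : ℝ} (h : PiB t a) (ha : a ≤ a') : PiB t a' := by
  obtain ⟨M, h1, h2, h3⟩ := h
  exact ⟨M, h1, h2, fun U η hη hU => (h3 U η hη hU).trans (mul_le_mul_of_nonneg_left ha hη)⟩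

theorem PiB.add {a a' : ℝ} (h : PiB t a) (h' : PiB t' a') : PiB (t + t') (a + a') := by
  obtain ⟨M, h1, h2, h3⟩ := h
  obtain ⟨M', h1', h2', h3'⟩ := h'
  refine ⟨M ∪ M', h1.union h1', ?_, fun U η hη hU => ?_⟩
  · rintro x (hx | hx)
    · exact h2 x hx
    · exact h2' x hx
  · rw [map_add, mul_add]
    exact (abs_add_le _ _).trans (add_le_add (h3 U η hη fun x hx => hU x (Or.inl hx))
      (h3' U η hη fun x hx => hU x (Or.inr hx)))

theorem PiB.smul {a : ℝ} (h : PiB t a) (c : ℝ) : PiB (c • t) (|c| * a) := by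
  obtain ⟨M, h1, h2, h3⟩ := h
  refine ⟨M, h1, h2, fun U η hη hU => ?_⟩
  rw [map_smul, smul_eq_mul, abs_mul, mul_left_comm]
  exact mul_le_mul_of_nonneg_left (h3 U η hη hU) (abs_nonneg c)

theorem piB_zero : PiB (0 : X ⊗[ℝ] (Y →L[ℝ] ℝ)) 0 :=
  ⟨∅, Set.finite_empty, fun _ hx => absurd hx (Set.notMem_empty _), fun U η _ _ => by simp⟩

theorem piB_tmul (x : X) (ξ : Y →L[ℝ] ℝ) : PiB (x ⊗ₜ[ℝ] ξ) (‖x‖ * ‖ξ‖) := by
  refine ⟨{‖x‖⁻¹ • x}, Set.finite_singleton _, ?_, fun U η hη hU => ?_⟩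
  · rintro y rfl
    rw [norm_smul, norm_inv, norm_norm]
    exact inv_mul_le_one_of_le₀ le_rfl (norm_nonneg _)
  · rw [pr_tmul]
    rcases (norm_nonneg x).eq_or_lt with h0 | h0
    · rw [norm_eq_zero.mp h0.symm]
      simp
    · have h1 := hU _ rfl
      rw [map_smul, norm_smul, norm_inv, norm_norm, inv_mul_le_iff₀ h0] at h1
      calc |ξ (U x)| ≤ ‖ξ‖ * ‖U x‖ := ξ.le_opNorm _
        _ ≤ ‖ξ‖ * (‖x‖ * η) := mul_le_mul_of_nonneg_left h1 (norm_nonneg _)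
        _ = _ := by ring

theorem exists_piB (t : X ⊗[ℝ] (Y →L[ℝ] ℝ)) : ∃ a, 0 ≤ a ∧ PiB t a := by
  induction t using TensorProduct.induction_on with
  | zero => exact ⟨0, le_rfl, piB_zero⟩
  | tmul x ξ => exact ⟨_, by positivity, piB_tmul x ξ⟩
  | add t t' h h' =>
    obtain ⟨a, ha, h1⟩ := h
    obtain ⟨a', ha', h1'⟩ := h'
    exact ⟨a + a', by positivity, h1.add h1'⟩

/-- Functionals bounded on elementary tensors and on atoms are uniformly bounded on atoms. -/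
def Core (ρ : ℝ) (X Y : Type*) [NormedAddCommGroup X] [NormedSpace ℝ X] [NormedAddCommGroup Y]
    [NormedSpace ℝ Y] : Prop :=
  ∀ φ : (X ⊗[ℝ] (Y →L[ℝ] ℝ)) →ₗ[ℝ] ℝ, (∀ x ξ, |φ (x ⊗ₜ[ℝ] ξ)| ≤ ‖x‖ * ‖ξ‖) →
    AtomBd ρ φ 8 → AtomBd ρ φ 1

/-- One step of the decomposition. -/
theorem decomp (hρ : 0 ≤ ρ) (hcore : Core ρ X Y) {b : ℝ} (hb : 0 < b) (h : AlB ρ t b) :
    ∃ t₂, PiB (t - t₂) (2 * b) ∧ AlB ρ t₂ (b / 4) := by
  obtain ⟨R, hR, t₁, t₂, a₁, b₁, ha₁, hb₁, ht, h1, h2, h3⟩ := exists_dec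
    (fun (t : X ⊗[ℝ] (Y →L[ℝ] ℝ)) R => ∃ t₁ t₂ a b, 0 ≤ a ∧ 0 ≤ b ∧ t = t₁ + t₂ ∧ PiB t₁ a ∧
      AlB ρ t₂ b ∧ a + 8 * b ≤ R)
    (by
      rintro t t' R R' ⟨t₁, t₂, a, b, ha, hb, rfl, h1, h2, h3⟩
        ⟨t₁', t₂', a', b', ha', hb', rfl, h1', h2', h3'⟩
      exact ⟨t₁ + t₁', t₂ + t₂', a + a', b + b', by positivity, by positivity, by abel,
        h1.add h1', h2.add h2', by linarith⟩)
    (by
      rintro c t R ⟨t₁, t₂, a, b, ha, hb, rfl, h1, h2, h3⟩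
      refine ⟨c • t₁, c • t₂, |c| * a, |c| * b, by positivity, by positivity, smul_add _ _ _,
        h1.smul c, h2.smul c, ?_⟩
      have := mul_le_mul_of_nonneg_left h3 (abs_nonneg c)
      linarith)
    (by
      rintro t R ⟨t₁, t₂, a, b, ha, hb, -, -, -, h3⟩
      linarith)
    (fun t => by
      obtain ⟨a, ha, h1⟩ := exists_piB t
      exact ⟨a, t, 0, a, 0, ha, le_rfl, (add_zero t).symm, h1, alB_zero, by linarith⟩)
    t (B := b) (fun φ hφ => by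
      have h1 := hcore φ
        (fun x ξ => hφ _ _ ⟨x ⊗ₜ[ℝ] ξ, 0, _, 0, by positivity, le_rfl, (add_zero _).symm,
          piB_tmul x ξ, alB_zero, by linarith⟩)
        (fun I _ _ L _ s c f g => hφ _ _ ⟨0, ten (pm s c) f g, 0, _, le_rfl,
          mul_nonneg (pow_nonneg hρ _) (mul_nonneg (nrm_nonneg f) (nrm_nonneg g)),
          (zero_add _).symm, piB_zero, alB_ten s c f g, by linarith⟩)
      have h2 := h φ 1 zero_le_one h1
      rw [one_mul] at h2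
      exact (le_abs_self _).trans h2) (by linarith : b < 2 * b)
  refine ⟨t₂, ?_, h2.mono (by linarith)⟩
  rw [ht, add_sub_cancel_right]
  exact h1.mono (by linarith)

/-- Finite rank operators are bounded on atoms. -/
theorem atomBd_finite (hρ : 1 ≤ ρ) (S : X →L[ℝ] Y)
    (hS : FiniteDimensional ℝ (LinearMap.range (S : X →ₗ[ℝ] Y))) :
    ∃ A, 0 ≤ A ∧ AtomBd ρ (pr S) A := by
  obtain ⟨R, hR0, hR⟩ := H1.finite_rank_bound S hS
  refine ⟨R, hR0, fun I _ _ L _ s c f g => ?_⟩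
  have h1 := hR I (pm s c) (abs_pm_le s c) f g
  rw [mul_assoc] at h1
  rw [map_ten]
  simp only [pr_tmul]
  refine le_trans h1 ?_
  refine mul_le_mul_of_nonneg_right ?_ (mul_nonneg (nrm_nonneg f) (nrm_nonneg g))
  exact le_mul_of_one_le_right hR0 (one_le_pow₀ hρ)

/-- The bound for approximable operators. -/
theorem approx_bound (hρ : 1 ≤ ρ) (hcore : Core ρ X Y) {V : X →L[ℝ] Y} (hV : Approximable V)
    {b : ℝ} (hb : 0 < b) (h : AlB ρ t b) : |pr V t| ≤ 3 * ‖V‖ * b := by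
  have hstep : ∀ (n : ℕ) (r : {r : X ⊗[ℝ] (Y →L[ℝ] ℝ) // AlB ρ r (b * (1 / 4) ^ n)}),
      ∃ r' : {r : X ⊗[ℝ] (Y →L[ℝ] ℝ) // AlB ρ r (b * (1 / 4) ^ (n + 1))},
        PiB (r.1 - r'.1) (2 * (b * (1 / 4) ^ n)) := by
    intro n r
    obtain ⟨t₂, h1, h2⟩ := decomp (by linarith) hcore (by positivity) r.2
    exact ⟨⟨t₂, h2.mono (le_of_eq (by rw [pow_succ]; ring))⟩, h1⟩
  choose F hF using hstep
  let R : ∀ n : ℕ, {r : X ⊗[ℝ] (Y →L[ℝ] ℝ) // AlB ρ r (b * (1 / 4) ^ n)} :=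
    fun n => Nat.rec ⟨t, h.mono (by simp)⟩ F n
  have hR0 : (R 0).1 = t := rfl
  have hRs : ∀ n, PiB ((R n).1 - (R (n + 1)).1) (2 * (b * (1 / 4) ^ n)) := fun n => hF n (R n)
  choose M hM1 hM2 hM3 using hRs
  obtain ⟨a₀, ha₀, M₀, hM₀1, hM₀2, hM₀3⟩ := exists_piB t
  have hcomp := (isCompact_levels (fun n => (fun x => (1 / 2 : ℝ) ^ n • x) '' M n)
    (fun n => (hM1 n).image _) (by
      rintro n _ ⟨x, hx, rfl⟩
      rw [norm_smul, Real.norm_of_nonneg (by positivity)]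
      exact mul_le_of_le_one_right (by positivity) (hM2 n x hx))).union hM₀1.isCompact
  refine le_of_forall_pos_le_add fun ε hε => ?_
  set η : ℝ := ε / (4 * b + a₀) with hη
  have hη0 : 0 < η := by positivity
  obtain ⟨S, hSf, hS⟩ := hV _ hcomp η hη0
  obtain ⟨A, hA0, hA⟩ := atomBd_finite hρ S hSf
  have hVn : ∀ n, |pr V ((R n).1 - (R (n + 1)).1)| ≤ ‖V‖ * (2 * (b * (1 / 4) ^ n)) := fun n =>
    hM3 n V ‖V‖ (norm_nonneg _) fun x hx =>
      (V.le_opNorm x).trans (mul_le_of_le_one_right (norm_nonneg _) (hM2 n x hx))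
  have hUn : ∀ n, |pr (S - V) ((R n).1 - (R (n + 1)).1)| ≤
      (2 ^ n * η) * (2 * (b * (1 / 4) ^ n)) := fun n =>
    hM3 n (S - V) _ (by positivity) fun x hx => by
      have h1 := hS ((1 / 2 : ℝ) ^ n • x) (Or.inl (Set.mem_insert_of_mem _
        (Set.mem_iUnion.mpr ⟨n, x, hx, rfl⟩)))
      rw [map_smul, map_smul, ← smul_sub, norm_smul, Real.norm_of_nonneg (by positivity),
        one_div, inv_pow, inv_mul_lt_iff₀ (by positivity)] at h1
      exact h1.le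
  have hsum : ∀ N : ℕ, |pr S t - pr S (R N).1| ≤
      3 * ‖V‖ * b * (1 - (1 / 4) ^ N) + 4 * η * b * (1 - (1 / 2) ^ N) := by
    intro N
    induction N with
    | zero => simp [hR0]
    | succ N ih =>
      have h1 : pr S t - pr S (R (N + 1)).1 = (pr S t - pr S (R N).1) +
          (pr V ((R N).1 - (R (N + 1)).1) + pr (S - V) ((R N).1 - (R (N + 1)).1)) := by
        rw [pr_sub, map_sub (pr S)]
        ring
      rw [h1]
      refine (abs_add_le _ _).trans ((add_le_add ih ((abs_add_le _ _).trans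
        (add_le_add (hVn N) (hUn N)))).trans ?_)
      have h2 : (2:ℝ) ^ N * (1 / 4) ^ N = (1 / 2) ^ N := by
        rw [← mul_pow]
        norm_num
      have h3 : (2 ^ N * η) * (2 * (b * (1 / 4) ^ N)) = 2 * η * b * (1 / 2) ^ N := by
        rw [← h2]
        ring
      have h4 : 0 ≤ ‖V‖ * b * (1 / 4) ^ N := by positivity
      rw [h3, pow_succ, pow_succ]
      nlinarith
  have hS1 : |pr S t| ≤ 3 * ‖V‖ * b + 4 * η * b := by
    refine le_of_forall_pos_le_add fun ε' hε' => ?_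
    obtain ⟨N, hN⟩ := exists_pow_lt_of_lt_one (show 0 < ε' / (A * b + 1) by positivity)
      (by norm_num : (1 / 4 : ℝ) < 1)
    rw [lt_div_iff₀ (by positivity)] at hN
    have h1 := (R N).2 (pr S) A hA0 hA
    have h2 := hsum N
    have h3 : |pr S t| ≤ |pr S t - pr S (R N).1| + |pr S (R N).1| := by
      have := abs_add_le (pr S t - pr S (R N).1) (pr S (R N).1)
      rwa [sub_add_cancel] at this
    have h4 : 0 ≤ 3 * ‖V‖ * b * (1 / 4) ^ N := by positivity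
    have h5 : 0 ≤ 4 * η * b * (1 / 2) ^ N := by positivity
    have h6 : (0:ℝ) ≤ (1 / 4) ^ N := by positivity
    nlinarith
  have hU0 : |pr (S - V) t| ≤ η * a₀ :=
    hM₀3 (S - V) η hη0.le fun x hx => (hS x (Or.inr hx)).le
  have h7 : pr V t = pr S t - pr (S - V) t := by
    rw [pr_sub]
    ring
  have h8 : η * (4 * b + a₀) = ε := by
    rw [hη]
    field_simp
  rw [h7]
  refine (abs_sub _ _).trans ?_
  nlinarith

theorem mp_of_core (hρ : 1 ≤ ρ) (hcore : Core ρ X Y) {V : X →L[ℝ] Y} (hV : Approximable V) :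
    MP V (3 * ‖V‖) ρ := by
  intro I _ _ L _ s c f g
  have h0 : ∑ S : Finset I, pm s c S * (wc S g) (V (wc S f)) = pr V (ten (pm s c) f g) := by
    rw [map_ten]
    simp only [pr_tmul]
  rw [h0]
  set b := ρ ^ #s * (nrm f * nrm g) with hb
  have hb0 : 0 ≤ b := mul_nonneg (by positivity) (mul_nonneg (nrm_nonneg f) (nrm_nonneg g))
  rw [mul_assoc, ← hb]
  refine le_of_forall_pos_le_add fun ε hε => ?_
  have h1 := approx_bound hρ hcore hV (b := b + ε / (3 * ‖V‖ + 1)) (by positivity)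
    ((alB_ten s c f g).mono (le_add_of_nonneg_right (by positivity)))
  refine h1.trans ?_
  rw [mul_add]
  refine add_le_add le_rfl ?_
  rw [← mul_div_assoc, div_le_iff₀ (by positivity)]
  nlinarith

end

/-- The core property holds under the cotype assumptions. -/
theorem core_of_cotype {q r C : ℝ} (hq2 : 2 ≤ q) (hr2 : 2 ≤ r) (hC : 1 ≤ C) :
    ∃ ρ : ℝ, 1 ≤ ρ ∧ ∀ (X : Type u) (Y : Type v) [NormedAddCommGroup X] [NormedSpace ℝ X]
      [NormedAddCommGroup Y] [NormedSpace ℝ Y],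
      CotypeWith q C Y → CotypeWith r C (X →L[ℝ] ℝ) → Core ρ X Y := by
  obtain ⟨ρ, hρ1, hρ⟩ := op_main.{v, u} hr2 hq2 hC
  refine ⟨ρ, hρ1, ?_⟩
  intro X Y _ _ _ _ hq hr φ hφ hA
  have hρ0 : 0 ≤ ρ := by linarith
  let S : (Y →L[ℝ] ℝ) →L[ℝ] (X →L[ℝ] ℝ) :=
    LinearMap.mkContinuous₂ ((TensorProduct.mk ℝ X (Y →L[ℝ] ℝ)).compr₂ φ).flip 1 (fun ξ x => by
      rw [one_mul, mul_comm]
      exact hφ x ξ)
  have hS : ∀ ξ x, S ξ x = φ (x ⊗ₜ[ℝ] ξ) := fun _ _ => rfl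
  have hSn : ‖S‖ ≤ 1 := LinearMap.mkContinuous₂_norm_le _ zero_le_one _
  have h1 : MP S 8 ρ := by
    intro I _ _ L _ s c
    rw [bd_iff_pre (by positivity)]
    intro f g
    have h2 := hA I L s c f g
    rw [map_ten] at h2
    simpa only [hS] using h2
  have h2 := hρ _ _ S hr (cotype_bidual hq2 (by linarith) hq) hSn 8 h1
  intro I _ _ L _ s c f g
  have h3 := (bd_iff_pre (by positivity)).mp (h2 I L s c) f g
  rw [map_ten]
  simpa only [hS] using h3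

/-- **Approximable operators**: uniform bounds for products of Rademacher projections. -/
theorem approx_main {q r C : ℝ} (hq2 : 2 ≤ q) (hr2 : 2 ≤ r) (hC : 1 ≤ C) :
    ∃ ρ : ℝ, 1 ≤ ρ ∧ ∀ (X : Type u) (Y : Type v) [NormedAddCommGroup X] [NormedSpace ℝ X]
      [NormedAddCommGroup Y] [NormedSpace ℝ Y] (V : X →L[ℝ] Y),
      CotypeWith q C Y → CotypeWith r C (X →L[ℝ] ℝ) → Approximable V → MP V (3 * ‖V‖) ρ := by
  obtain ⟨ρ, hρ1, hρ⟩ := core_of_cotype.{u, v} hq2 hr2 hC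
  exact ⟨ρ, hρ1, fun X Y _ _ _ _ V hq hr hV => mp_of_core hρ1 (hρ X Y hq hr) hV⟩

end Vale.Agent.N111
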