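import Vale.Agent.N111.Select

/-!
An a priori bound for the number of large Fourier coefficients.
-/

set_option linter.unusedSectionVars false

namespace Vale.Agent.N111

open Finset Vale.Agent.P111 Vale.Agent.P111.TK Vale.Agent.P111.HM

section

variable {X Y : Type*} [NormedAddCommGroup X] [NormedSpace ℝ X] [NormedAddCommGroup Y]
  [NormedSpace ℝ Y] {I : Type} [Fintype I] [DecidableEq I] {D : ℕ}

/-- The kernel of the conditional expectation. -/
noncomputable def ker (J : I → Fin D → ℤˣ) (δ : I → ℤˣ) (x : Fin D → ℤˣ) : ℝ :=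
  ∏ a, (1 + sg (δ a) * sg (chi (J a) x))

theorem ker_nonneg (J : I → Fin D → ℤˣ) (δ : I → ℤˣ) (x : Fin D → ℤˣ) : 0 ≤ ker J δ x := by
  refine Finset.prod_nonneg fun a _ => ?_
  have := abs_le.mp (abs_sg (δ a * chi (J a) x)).le
  rw [sg_mul] at this
  linarith [this.1]

theorem ker_eq (J : I → Fin D → ℤˣ) (δ : I → ℤˣ) (x : Fin D → ℤˣ) :
    ker J δ x = ∑ S : Finset I, walsh S δ * sg (chi (∏ a ∈ S, J a) x) := by
  rw [ker, Finset.prod_one_add, Finset.powerset_univ]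
  refine Finset.sum_congr rfl fun S _ => ?_
  rw [Finset.prod_mul_distrib, chi_prod_left, H1.sg_prod, walsh]

theorem avg_ker {J : I → Fin D → ℤˣ} (hJ : ∀ S : Finset I, S.Nonempty → ∏ a ∈ S, J a ≠ 1)
    (δ : I → ℤˣ) : avg (ker J δ) = 1 := by
  have h1 : avg (ker J δ) = avg fun x => ∑ S : Finset I, walsh S δ * sg (chi (∏ a ∈ S, J a) x) :=
    avg_congr fun x => ker_eq J δ x
  rw [h1, avg_sum, Finset.sum_eq_single ∅]
  · rw [avg_mul_left, avg_chi]
    simp [walsh_empty]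
  · intro S _ hS
    rw [avg_mul_left, avg_chi, if_neg (hJ S (Finset.nonempty_iff_ne_empty.mpr hS)), mul_zero]
  · intro h
    exact absurd (Finset.mem_univ _) h

theorem avg_walsh_ker (J : I → Fin D → ℤˣ) (S : Finset I) (x : Fin D → ℤˣ) :
    (avg fun δ : I → ℤˣ => walsh S δ * ker J δ x) = sg (chi (∏ a ∈ S, J a) x) := by
  have h1 : ∀ δ : I → ℤˣ, walsh S δ * ker J δ x =
      ∑ T : Finset I, (walsh S δ * walsh T δ) * sg (chi (∏ a ∈ T, J a) x) := by
    intro δ
    rw [ker_eq, Finset.mul_sum]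
    exact Finset.sum_congr rfl fun T _ => by ring
  rw [avg_congr h1, avg_sum]
  simp only [avg_mul_right, avg_walsh_mul_walsh]
  simp

/-- The conditional expectation given the characters `J a`. -/
noncomputable def cnd (J : I → Fin D → ℤˣ) (θ : (Fin D → ℤˣ) → (Y →L[ℝ] ℝ)) (δ : I → ℤˣ) :
    Y →L[ℝ] ℝ := avg fun x => ker J δ x • θ x

theorem norm_cnd_le {J : I → Fin D → ℤˣ} (hJ : ∀ S : Finset I, S.Nonempty → ∏ a ∈ S, J a ≠ 1)
    {θ : (Fin D → ℤˣ) → (Y →L[ℝ] ℝ)} (hθ : ∀ x, ‖θ x‖ ≤ 1) (δ : I → ℤˣ) : ‖cnd J θ δ‖ ≤ 1 := by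
  have h0 : ∀ f : (Fin D → ℤˣ) → (Y →L[ℝ] ℝ), ‖avg f‖ ≤ avg fun ω => ‖f ω‖ :=
    fun f => H1.norm_avg_le f
  refine (h0 _).trans ?_
  rw [← avg_ker hJ δ]
  refine avg_mono fun x => ?_
  rw [norm_smul, Real.norm_of_nonneg (ker_nonneg J δ x)]
  exact mul_le_of_le_one_right (ker_nonneg J δ x) (hθ x)

theorem wc_cnd (T : X →L[ℝ] Y) (J : I → Fin D → ℤˣ) (θ : (Fin D → ℤˣ) → (Y →L[ℝ] ℝ))
    (S : Finset I) :
    wc S (fun δ => (cnd J θ δ).comp T) = fo T θ (∏ a ∈ S, J a) := by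
  ext y
  rw [wc_apply, fo, avg_apply]
  have h1 : ∀ δ : I → ℤˣ, walsh S δ * ((cnd J θ δ).comp T) y =
      avg fun x => (walsh S δ * ker J δ x) * θ x (T y) := by
    intro δ
    rw [ContinuousLinearMap.comp_apply, cnd, avg_apply, ← avg_mul_left]
    refine avg_congr fun x => ?_
    rw [_root_.smul_apply, smul_eq_mul, mul_assoc]
  rw [avg_congr h1, avg_comm]
  refine avg_congr fun x => ?_
  rw [avg_mul_right, avg_walsh_ker]
  rfl

/-- A maximal independent family of characters. -/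
theorem exists_basis (Λ : Finset (Fin D → ℤˣ)) : ∃ B : Finset (Fin D → ℤˣ), B ⊆ Λ ∧
    (∀ S : Finset B, S.Nonempty → ∏ a ∈ S, (a : Fin D → ℤˣ) ≠ 1) ∧
    ∀ b ∈ Λ, ∃ S : Finset B, ∏ a ∈ S, (a : Fin D → ℤˣ) = b := by
  classical
  set F : Finset (Finset (Fin D → ℤˣ)) := Λ.powerset.filter fun B =>
    ∀ T ⊆ B, T.Nonempty → ∏ a ∈ T, a ≠ 1 with hF
  have hne : F.Nonempty := by
    refine ⟨∅, ?_⟩
    rw [hF, Finset.mem_filter]
    refine ⟨Finset.empty_mem_powerset _, fun T hT hT' => ?_⟩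
    rw [Finset.subset_empty.mp hT] at hT'
    exact absurd hT' Finset.not_nonempty_empty
  obtain ⟨B, hB, hmax⟩ := Finset.exists_max_image F Finset.card hne
  rw [hF, Finset.mem_filter, Finset.mem_powerset] at hB
  have hsub : ∀ T ⊆ B, ∃ S : Finset B, ∏ a ∈ S, (a : Fin D → ℤˣ) = ∏ a ∈ T, a := by
    intro T hT
    refine ⟨T.subtype (· ∈ B), ?_⟩
    rw [Finset.prod_subtype_of_mem (fun a => a) fun x hx => hT hx]
  refine ⟨B, hB.1, ?_, ?_⟩
  · intro S hS
    have h1 := hB.2 (S.map (Function.Embedding.subtype _)) (by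
      intro x hx
      obtain ⟨a, -, rfl⟩ := Finset.mem_map.mp hx
      exact a.2) (by simpa using hS)
    rwa [Finset.prod_map] at h1
  · intro b hb
    by_cases hbB : b ∈ B
    · obtain ⟨S, hS⟩ := hsub {b} (Finset.singleton_subset_iff.mpr hbB)
      exact ⟨S, by rw [hS, Finset.prod_singleton]⟩
    · have h1 : insert b B ∉ F := by
        intro h
        have := hmax _ h
        rw [Finset.card_insert_of_notMem hbB] at this
        omega
      rw [hF, Finset.mem_filter, Finset.mem_powerset, not_and] at h1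
      have h2 := h1 (Finset.insert_subset hb hB.1)
      push Not at h2
      obtain ⟨T, hT, hTne, hT1⟩ := h2
      have hbT : b ∈ T := by
        by_contra hbT
        refine hB.2 T ?_ hTne hT1
        intro x hx
        rcases Finset.mem_insert.mp (hT hx) with rfl | h
        · exact absurd hx hbT
        · exact h
      have h3 : T.erase b ⊆ B := by
        intro x hx
        rcases Finset.mem_insert.mp (hT (Finset.mem_of_mem_erase hx)) with rfl | h
        · exact absurd hx (Finset.notMem_erase _ _)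
        · exact h
      obtain ⟨S, hS⟩ := hsub _ h3
      refine ⟨S, ?_⟩
      rw [hS]
      rw [← Finset.mul_prod_erase T (fun a => a) hbT] at hT1
      exact ((mul_eq_one_iff_eq' _ _).mp hT1).symm

/-- A colouring of a large set with `k` classes of size at least `n`. -/
theorem exists_colouring (J : Finset I) {k n : ℕ} (hn : 1 ≤ n) (h : k * n ≤ #J) :
    ∃ c : I → ℕ, (∀ x, c x < k → x ∈ J) ∧
      ∀ l < k, n ≤ #(Finset.univ.filter fun x => c x = l) := by
  classical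
  let e := J.equivFin
  refine ⟨fun x => if hx : x ∈ J then (e ⟨x, hx⟩ : ℕ) / n else k, ?_, ?_⟩
  · intro x hx
    by_contra hxJ
    simp [hxJ] at hx
  · intro l hl
    have hlt : ∀ j : Fin n, l * n + j < #J := by
      intro j
      have h1 : (l + 1) * n ≤ k * n := Nat.mul_le_mul_right n hl
      have h2 := j.2
      nlinarith
    have h1 : #(Finset.univ : Finset (Fin n)) ≤
        #(Finset.univ.filter fun x =>
          (if hx : x ∈ J then (e ⟨x, hx⟩ : ℕ) / n else k) = l) := by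
      refine Finset.card_le_card_of_injOn
        (fun j => ((e.symm ⟨l * n + j, hlt j⟩ : J) : I)) ?_ ?_
      · intro j _
        rw [Finset.coe_filter]
        refine ⟨Finset.mem_univ _, ?_⟩
        have h2 : ((e.symm ⟨l * n + j, hlt j⟩ : J) : I) ∈ J := (e.symm ⟨l * n + j, hlt j⟩).2
        simp only [h2, dif_pos, Subtype.coe_eta, Equiv.apply_symm_apply]
        rw [mul_comm, Nat.mul_add_div (by omega), Nat.div_eq_of_lt j.2, add_zero]
      · intro j _ j' _ hjj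
        have h2 := e.symm.injective (Subtype.ext hjj)
        simp only [Fin.mk.injEq, add_right_inj] at h2
        exact Fin.ext h2
    simpa using h1

theorem sum_choose_le (m d : ℕ) : ∑ k ∈ Finset.Iic d, m.choose k ≤ (2 * (m + 1)) ^ d := by
  calc ∑ k ∈ Finset.Iic d, m.choose k ≤ ∑ _k ∈ Finset.Iic d, (m + 1) ^ d := by
        refine Finset.sum_le_sum fun k hk => ?_
        calc m.choose k ≤ m ^ k := Nat.choose_le_pow m k
          _ ≤ (m + 1) ^ k := Nat.pow_le_pow_left (Nat.le_succ m) k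
          _ ≤ (m + 1) ^ d := Nat.pow_le_pow_right (Nat.succ_pos m) (Finset.mem_Iic.mp hk)
    _ = (d + 1) * (m + 1) ^ d := by simp
    _ ≤ 2 ^ d * (m + 1) ^ d := Nat.mul_le_mul_right _ (Nat.lt_two_pow_self)
    _ = _ := by rw [mul_pow]

/-- The a priori bound. -/
theorem apriori {T : X →L[ℝ] Y} {r C A ρ e : ℝ} (hr : 2 ≤ r) (hC : 0 ≤ C)
    (hX : CotypeWith r C (X →L[ℝ] ℝ)) (hA : 0 ≤ A) (hρ : 0 ≤ ρ) (hT : MP T A ρ) {R : ℕ}
    (hR : r ≤ R) (he : 0 ≤ e) {k m₀ n₀ : ℕ} (hm₀ : 1 ≤ m₀) (hn₀ : 1 ≤ n₀)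
    (h1 : (C * (A * ρ)) ^ R < m₀ * e ^ R) (h2 : (C ^ k * (A * ρ ^ k)) ^ R < (n₀:ℝ) ^ k * e ^ R)
    {θ : (Fin D → ℤˣ) → (Y →L[ℝ] ℝ)} (hθ : ∀ x, ‖θ x‖ ≤ 1) :
    cno T θ e ≤ (2 * m₀) ^ (k * n₀) := by
  classical
  set Λ : Finset (Fin D → ℤˣ) := Finset.univ.filter fun b => e ≤ ‖fo T θ b‖ with hΛ
  obtain ⟨B, hB1, hB2, hB3⟩ := exists_basis Λ
  set θ' : (B → ℤˣ) → (Y →L[ℝ] ℝ) := cnd (fun a : B => (a : Fin D → ℤˣ)) θ with hθ'
  set H : (B → ℤˣ) → (X →L[ℝ] ℝ) := fun δ => (θ' δ).comp T with hH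
  have hθ'1 : nrm θ' ≤ 1 := by
    rw [nrm, Real.sqrt_le_one]
    refine (avg_mono fun δ => ?_).trans (avg_const (1:ℝ)).le
    exact pow_le_one₀ (norm_nonneg _) (norm_cnd_le hB2 hθ δ)
  have hwc : ∀ S : Finset B, wc S H = fo T θ (∏ a ∈ S, (a : Fin D → ℤˣ)) :=
    fun S => wc_cnd T _ θ S
  have hmm : ∀ (L : Type) [DecidableEq L] (s : Finset L) (c : B → L),
      nrm (mm (pm s c) H) ≤ A * ρ ^ #s := by
    intro L _ s c
    have h0 : 0 ≤ A * ρ ^ #s := by positivity
    exact (dual_nrm h0 (hT B L s c) θ').trans (mul_le_of_le_one_right h0 hθ'1)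
  have hbd : ∀ (L : Type) [DecidableEq L] (s : Finset L) (c : B → L),
      (C ^ #s * nrm (mm (pm s c) H)) ^ R ≤ (C ^ #s * (A * ρ ^ #s)) ^ R := by
    intro L _ s c
    refine pow_le_pow_left₀ (mul_nonneg (by positivity) (nrm_nonneg _)) ?_ R
    exact mul_le_mul_of_nonneg_left (hmm L s c) (by positivity)
  set 𝒜 : Finset (Finset B) := Finset.univ.filter fun S => e ≤ ‖wc S H‖ with h𝒜
  have hmem : ∀ S ∈ 𝒜, e ^ R ≤ ‖wc S H‖ ^ R := fun S hS =>
    pow_le_pow_left₀ he (Finset.mem_filter.mp hS).2 R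
  -- the rank is bounded
  have hrank : #B < m₀ := by
    by_contra hcon
    rw [not_lt] at hcon
    obtain ⟨U, hU1, hU2⟩ := iter hr hC hX hR (fun _ : B => ()) hm₀ {()} (by
      intro l _
      simpa using hcon) H
    obtain ⟨x, -, hx⟩ := hU1 () (Finset.mem_singleton_self _)
    have h3 := hU2 {x} (by
      intro l _
      rw [hx]
      simp)
    have h4 := h3.trans (hbd Unit {()} _)
    have h5 : ({x} : Finset B) ∈ 𝒜 := by
      rw [h𝒜, Finset.mem_filter, hwc, Finset.prod_singleton]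
      exact ⟨Finset.mem_univ _, (Finset.mem_filter.mp (hB1 x.2)).2⟩
    have h6 := hmem _ h5
    simp only [Finset.card_singleton, pow_one] at h4
    have h7 : (m₀ : ℝ) * e ^ R ≤ m₀ * ‖wc {x} H‖ ^ R :=
      mul_le_mul_of_nonneg_left h6 (Nat.cast_nonneg _)
    linarith
  -- shattered sets are small
  have hshat : ∀ J : Finset B, 𝒜.Shatters J → #J ≤ k * n₀ := by
    intro J hJ
    by_contra hcon
    rw [not_le] at hcon
    obtain ⟨c, hc1, hc2⟩ := exists_colouring J hn₀ hcon.le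
    obtain ⟨U, hU1, hU2⟩ := iter hr hC hX hR c hn₀ (Finset.range k)
      (fun l hl => hc2 l (Finset.mem_range.mp hl)) H
    set W : Finset B := (Finset.range k).biUnion U with hW
    have hWJ : W ⊆ J := by
      intro y hy
      obtain ⟨l, hl, hy'⟩ := Finset.mem_biUnion.mp hy
      obtain ⟨x, hx1, hx2⟩ := hU1 l hl
      rw [hx2, Finset.mem_singleton] at hy'
      rw [hy']
      exact hc1 x (by rw [hx1]; exact Finset.mem_range.mp hl)
    obtain ⟨S₀, hS₀, hJS⟩ := hJ hWJ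
    have h3 := hU2 S₀ (by
      intro l hl
      obtain ⟨x, hx1, hx2⟩ := hU1 l hl
      ext y
      rw [Finset.mem_filter]
      constructor
      · rintro ⟨hy1, hy2⟩
        have hyJ : y ∈ J := hc1 y (by rw [hy2]; exact Finset.mem_range.mp hl)
        have hyW : y ∈ W := by rw [← hJS]; exact Finset.mem_inter.mpr ⟨hyJ, hy1⟩
        obtain ⟨l', hl', hy'⟩ := Finset.mem_biUnion.mp hyW
        obtain ⟨x', hx1', hx2'⟩ := hU1 l' hl'
        have hyx : y = x' := by rwa [hx2', Finset.mem_singleton] at hy'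
        have hll : l' = l := by rw [← hx1', ← hyx, hy2]
        rwa [hll] at hy'
      · intro hy
        have hyW : y ∈ W := Finset.mem_biUnion.mpr ⟨l, hl, hy⟩
        rw [← hJS] at hyW
        refine ⟨(Finset.mem_inter.mp hyW).2, ?_⟩
        rw [hx2, Finset.mem_singleton] at hy
        rw [hy, hx1])
    have h4 := h3.trans (hbd ℕ (Finset.range k) c)
    rw [Finset.card_range] at h4
    have h7 : (n₀ : ℝ) ^ k * e ^ R ≤ (n₀ : ℝ) ^ k * ‖wc S₀ H‖ ^ R :=
      mul_le_mul_of_nonneg_left (hmem _ hS₀) (by positivity)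
    linarith
  have hvc : 𝒜.vcDim ≤ k * n₀ :=
    Finset.sup_le fun J hJ => hshat J (Finset.mem_shatterer.mp hJ)
  have hΛ𝒜 : #Λ ≤ #𝒜 := by
    choose! σ hσ using hB3
    refine Finset.card_le_card_of_injOn σ ?_ ?_
    · intro b hb
      have hb' : b ∈ Λ := hb
      rw [h𝒜, Finset.coe_filter]
      refine ⟨Finset.mem_univ _, ?_⟩
      rw [hwc, hσ b hb']
      exact (Finset.mem_filter.mp hb').2
    · intro b hb b' hb' hbb
      rw [← hσ b hb, ← hσ b' hb', hbb]
  calc cno T θ e = #Λ := rfl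
    _ ≤ #𝒜 := hΛ𝒜
    _ ≤ #𝒜.shatterer := Finset.card_le_card_shatterer 𝒜
    _ ≤ ∑ j ∈ Finset.Iic 𝒜.vcDim, (Fintype.card B).choose j :=
        Finset.card_shatterer_le_sum_vcDim
    _ ≤ (2 * (Fintype.card B + 1)) ^ 𝒜.vcDim := sum_choose_le _ _
    _ ≤ (2 * m₀) ^ 𝒜.vcDim := by
        refine Nat.pow_le_pow_left ?_ _
        rw [Fintype.card_coe]
        omega
    _ ≤ (2 * m₀) ^ (k * n₀) := Nat.pow_le_pow_right (by omega) hvc

end

end Vale.Agent.N111
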