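import Vale.Agent.N111.Improve

/-!
Cotype passes to the bidual. Duality between type and cotype.
-/

set_option linter.unusedSectionVars false

namespace Vale.Agent.N111

open Finset Vale.Agent.P111 Vale.Agent.P111.HM Vale.Agent.P111.EZ

section

theorem holder_gen {q : ℝ} (hq : 1 < q) {n : ℕ} (a b : Fin n → ℝ) (ha : ∀ i, 0 ≤ a i)
    (hb : ∀ i, 0 ≤ b i) :
    ∑ i, a i * b i ≤ (∑ i, a i ^ (q / (q - 1))) ^ (1 / (q / (q - 1))) * (∑ i, b i ^ q) ^ (1 / q) :=
  Real.inner_le_Lp_mul_Lq_of_nonneg (s := (Finset.univ : Finset (Fin n))) (f := a) (g := b)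
    (p := q / (q - 1)) (q := q) (Real.HolderConjugate.conjExponent hq).symm
    (fun i _ => ha i) (fun i _ => hb i)

theorem sum_pow_conj {q : ℝ} (hq : 1 < q) {n : ℕ} (a : Fin n → ℝ) (ha : ∀ i, 0 ≤ a i) :
    (∑ i, (a i ^ (q - 1)) ^ (q / (q - 1))) ^ (1 / (q / (q - 1))) = (∑ i, a i ^ q) ^ (1 - 1 / q) := by
  have h0 : q - 1 ≠ 0 := by linarith
  have h1 : q ≠ 0 := by linarith
  congr 1
  · refine Finset.sum_congr rfl fun i _ => ?_
    rw [← Real.rpow_mul (ha i)]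
    congr 1
    field_simp
  · field_simp

theorem finish {q W t : ℝ} (hq : 1 < q) (hW : 0 ≤ W) (ht : 0 ≤ t)
    (h : ∀ δ : ℝ, 0 < δ → δ < 1 → (1 - δ) * W ≤ W ^ (1 - 1 / q) * t) : W ^ (1 / q) ≤ t := by
  rcases hW.eq_or_lt with h0 | h0
  · rw [← h0, Real.zero_rpow (by positivity)]
    exact ht
  have h1 : W = W ^ (1 - 1 / q) * W ^ (1 / q) := by
    rw [← Real.rpow_add h0, sub_add_cancel, Real.rpow_one]
  have h2 : 0 < W ^ (1 - 1 / q) := by positivity
  have h3 : 0 < W ^ (1 / q) := by positivity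
  have h4 : ∀ δ : ℝ, 0 < δ → δ < 1 → (1 - δ) * W ^ (1 / q) ≤ t := by
    intro δ hδ0 hδ1
    have h5 := h δ hδ0 hδ1
    have h6 : W ^ (1 - 1 / q) * ((1 - δ) * W ^ (1 / q)) ≤ W ^ (1 - 1 / q) * t := by
      calc W ^ (1 - 1 / q) * ((1 - δ) * W ^ (1 / q))
          = (1 - δ) * (W ^ (1 - 1 / q) * W ^ (1 / q)) := by ring
        _ = (1 - δ) * W := by rw [← h1]
        _ ≤ _ := h5
    exact le_of_mul_le_mul_left h6 h2
  by_contra hcon
  rw [not_le] at hcon
  set s := W ^ (1 / q) with hs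
  have h7 : 0 < (s - t) / (2 * s) := div_pos (by linarith) (by linarith)
  have h8 : (s - t) / (2 * s) < 1 := by
    rw [div_lt_one (by linarith)]
    linarith
  have h9 := h4 _ h7 h8
  have h10 : (1 - (s - t) / (2 * s)) * s = s - (s - t) / 2 := by field_simp
  rw [h10] at h9
  linarith

variable {X Y : Type*} [NormedAddCommGroup X] [NormedSpace ℝ X] [NormedAddCommGroup Y]
  [NormedSpace ℝ Y]

theorem nrm_eq {Ω E : Type*} [Fintype Ω] [NormedAddCommGroup E] (f : Ω → E) :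
    (avg fun ω => ‖f ω‖ ^ 2) ^ (1 / 2 : ℝ) = nrm f := by
  rw [nrm, Real.sqrt_eq_rpow]

/-- Near norming vectors, scaled. -/
theorem exists_near_norming_pow {q : ℝ} (hq : 2 ≤ q) (g : Y →L[ℝ] ℝ) {δ : ℝ} (h0 : 0 < δ)
    (h1 : δ < 1) : ∃ y : Y, ‖y‖ ≤ ‖g‖ ^ (q - 1) ∧ (1 - δ) * ‖g‖ ^ q ≤ g y := by
  obtain ⟨y, hy1, hy2⟩ := exists_near_norming g h0 h1
  have h2 : 0 ≤ ‖g‖ ^ (q - 2) := by positivity
  have h3 : ‖g‖ ^ (q - 2) * ‖g‖ = ‖g‖ ^ (q - 1) := by
    rw [← Real.rpow_add_one' (norm_nonneg g) (by linarith)]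
    congr 1
    ring
  have h4 : ‖g‖ ^ (q - 2) * ‖g‖ ^ 2 = ‖g‖ ^ q := by
    rw [sq, ← mul_assoc, h3, ← Real.rpow_add_one' (norm_nonneg g) (by linarith)]
    congr 1
    ring
  refine ⟨‖g‖ ^ (q - 2) • y, ?_, ?_⟩
  · rw [norm_smul, Real.norm_of_nonneg h2, ← h3]
    exact mul_le_mul_of_nonneg_left hy1 h2
  · rw [map_smul, smul_eq_mul, ← h4, mul_left_comm]
    exact mul_le_mul_of_nonneg_left hy2 h2

/-- Lifts in `L₂`. -/
theorem lift_l2 {m : ℕ} (ξ : Fin m → (Y →L[ℝ] ℝ)) {c : ℝ} (hc : 0 ≤ c)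
    (hξ : ∀ x : Fin m → Y, ∑ i, ξ i (x i) ≤ c * nrm fun ε : Fin m → ℤˣ => ∑ i, sg (ε i) • x i) :
    ∃ g : (Fin m → ℤˣ) → (Y →L[ℝ] ℝ), nrm g ≤ c ∧ ∀ k, wc {k} g = ξ k := by
  classical
  set N : ℝ := (Fintype.card (Fin m → ℤˣ) : ℝ) with hN
  have hN0 : 0 < N := by
    rw [hN]; exact_mod_cast Fintype.card_pos
  have hs0 : 0 < √N := Real.sqrt_pos.2 hN0
  have hnrm : ∀ {E : Type _} [NormedAddCommGroup E] (h : PiLp 2 (fun _ : Fin m → ℤˣ => E)),
      nrm (fun ε => h ε) = (√N)⁻¹ * ‖h‖ := by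
    intro E _ h
    rw [nrm, avg, smul_eq_mul, ← PiLp.norm_sq_eq_of_L2 (fun _ : Fin m → ℤˣ => E) h,
      Real.sqrt_mul (by positivity), Real.sqrt_inv, Real.sqrt_sq (norm_nonneg _)]
  let φ₀ : PiLp 2 (fun _ : Fin m → ℤˣ => Y) →ₗ[ℝ] ℝ :=
    { toFun := fun h => ∑ i, ξ i (wc {i} fun ε => h ε)
      map_add' := by
        intro h h'
        rw [← Finset.sum_add_distrib]
        refine Finset.sum_congr rfl fun i _ => ?_
        rw [← map_add, ← wc_add]
        rfl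
      map_smul' := by
        intro s h
        rw [RingHom.id_apply, smul_eq_mul, Finset.mul_sum]
        refine Finset.sum_congr rfl fun i _ => ?_
        rw [← smul_eq_mul, ← map_smul, ← wc_smul]
        rfl }
  let Rl : (Fin m → Y) →ₗ[ℝ] PiLp 2 (fun _ : Fin m → ℤˣ => Y) :=
    { toFun := fun x => WithLp.toLp 2 fun ε => ∑ i, sg (ε i) • x i
      map_add' := by
        intro x x'
        ext ε
        simp [smul_add, Finset.sum_add_distrib]
      map_smul' := by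
        intro s x
        ext ε
        simp only [RingHom.id_apply, Pi.smul_apply, PiLp.smul_apply, Finset.smul_sum]
        exact Finset.sum_congr rfl fun i _ => smul_comm _ _ _ }
  have hφR : ∀ x : Fin m → Y, φ₀ (Rl x) = ∑ i, ξ i (x i) := by
    intro x
    change ∑ i, ξ i (wc {i} fun ε : Fin m → ℤˣ => ∑ i, sg (ε i) • x i) = _
    exact Finset.sum_congr rfl fun i _ => by rw [SY.wc_const_sum]
  let f : PiLp 2 (fun _ : Fin m → ℤˣ => Y) →ₗ.[ℝ] ℝ := ⟨LinearMap.range Rl, φ₀.domRestrict _⟩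
  set c' : ℝ := c * (√N)⁻¹ with hc'
  have hc'0 : 0 ≤ c' := by positivity
  obtain ⟨Γ, hΓ1, hΓ2⟩ := exists_extension_of_le_sublinear f (fun h => c' * ‖h‖)
    (fun s hs h => by rw [norm_smul, Real.norm_of_nonneg hs.le]; ring)
    (fun h h' => by
      rw [← mul_add]
      exact mul_le_mul_of_nonneg_left (norm_add_le _ _) hc'0)
    (by
      rintro ⟨h, x, rfl⟩
      change φ₀ (Rl x) ≤ c' * ‖Rl x‖
      rw [hφR, hc', mul_assoc, ← hnrm (Rl x)]
      exact hξ x)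
  have hΓ3 : ∀ h, ‖Γ h‖ ≤ c' * ‖h‖ := by
    intro h
    rw [Real.norm_eq_abs, abs_le]
    have h2 := hΓ2 (-h)
    rw [map_neg, norm_neg] at h2
    exact ⟨by linarith, hΓ2 h⟩
  set G := Γ.mkContinuous c' hΓ3 with hG
  have hGn : ‖coords G‖ ≤ c' := by
    rw [norm_coords]
    exact LinearMap.mkContinuous_norm_le _ hc'0 _
  refine ⟨fun ε => (N • coords G) ε, ?_, ?_⟩
  · rw [hnrm, norm_smul, Real.norm_of_nonneg hN0.le]
    calc (√N)⁻¹ * (N * ‖coords G‖) ≤ (√N)⁻¹ * (N * c') := by gcongr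
      _ = c * (N / (√N * √N)) := by rw [hc']; field_simp
      _ = c := by rw [Real.mul_self_sqrt hN0.le, div_self hN0.ne', mul_one]
  · intro k
    ext x
    have h3 := hΓ1 ⟨Rl (Pi.single k x), Pi.single k x, rfl⟩
    change G (Rl (Pi.single k x)) = φ₀ (Rl (Pi.single k x)) at h3
    rw [hφR, Finset.sum_eq_single k (fun j _ hj => by rw [Pi.single_eq_of_ne hj, map_zero])
      (fun h => absurd (Finset.mem_univ k) h), Pi.single_eq_same, apply_eq] at h3
    rw [← h3, wc_apply, avg, smul_eq_mul, ← hN, Finset.mul_sum]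
    refine Finset.sum_congr rfl fun ε _ => ?_
    have h4 : (Rl (Pi.single k x)) ε = sg (ε k) • x := by
      change ∑ i, sg (ε i) • (Pi.single k x : Fin m → Y) i = _
      rw [Finset.sum_eq_single k (fun j _ hj => by rw [Pi.single_eq_of_ne hj, smul_zero])
        (fun h => absurd (Finset.mem_univ k) h), Pi.single_eq_same]
    have h5 : (N • coords G) ε x = N * coords G ε x := rfl
    rw [h4, map_smul, walsh_singleton, h5, smul_eq_mul]
    field_simp

/-- The pairing of a Rademacher sum of functionals with a function. -/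
theorem sum_apply_wc {m : ℕ} (y : Fin m → (X →L[ℝ] ℝ)) (g : (Fin m → ℤˣ) → X) :
    ∑ i, y i (wc {i} g) = avg fun ε : Fin m → ℤˣ => (∑ i, sg (ε i) • y i) (g ε) := by
  have h1 : ∀ ε : Fin m → ℤˣ, (∑ i, sg (ε i) • y i) (g ε) = ∑ i, sg (ε i) * y i (g ε) := by
    intro ε
    simp
  rw [avg_congr h1, avg_sum]
  refine Finset.sum_congr rfl fun i _ => ?_
  rw [map_wc, wc]
  simp only [walsh_singleton, smul_eq_mul]

theorem abs_pair_nrm {Ω : Type*} [Fintype Ω] (f : Ω → X) (g : Ω → (X →L[ℝ] ℝ)) :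
    |avg fun x => g x (f x)| ≤ nrm g * nrm f := by
  calc |avg fun x => g x (f x)| ≤ avg fun x => |g x (f x)| := abs_avg_le _
    _ ≤ avg fun x => ‖g x‖ * ‖f x‖ := avg_mono fun x => (g x).le_opNorm _
    _ ≤ _ := avg_mul_le_sqrt _ _

/-- Cotype passes to the bidual. -/
theorem cotype_bidual {q C : ℝ} (hq : 2 ≤ q) (hC : 0 ≤ C) (h : CotypeWith q C Y) :
    CotypeWith q C ((Y →L[ℝ] ℝ) →L[ℝ] ℝ) := by
  intro n y
  have hq1 : 1 < q := by linarith
  rw [nrm_eq]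
  refine finish hq1 (Finset.sum_nonneg fun i _ => by positivity)
    (mul_nonneg hC (nrm_nonneg _)) fun δ h0 h1 => ?_
  choose ξ hξ1 hξ2 using fun i => exists_near_norming_pow hq (y i) h0 h1
  set W := ∑ i, ‖y i‖ ^ q with hW
  have hW0 : 0 ≤ W := Finset.sum_nonneg fun i _ => by positivity
  obtain ⟨g, hg1, hg2⟩ := lift_l2 ξ (c := W ^ (1 - 1 / q) * C) (by positivity) (fun x => by
    calc ∑ i, ξ i (x i) ≤ ∑ i, ‖y i‖ ^ (q - 1) * ‖x i‖ := by
          refine Finset.sum_le_sum fun i _ => (le_abs_self _).trans ?_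
          exact ((ξ i).le_opNorm _).trans (mul_le_mul_of_nonneg_right (hξ1 i) (norm_nonneg _))
      _ ≤ W ^ (1 - 1 / q) * (∑ i, ‖x i‖ ^ q) ^ (1 / q) := by
          rw [hW, ← sum_pow_conj hq1 _ fun i => norm_nonneg (y i)]
          exact holder_gen hq1 _ _ (fun i => by positivity) fun i => norm_nonneg _
      _ ≤ W ^ (1 - 1 / q) * (C * nrm fun ε : Fin n → ℤˣ => ∑ i, sg (ε i) • x i) := by
          refine mul_le_mul_of_nonneg_left ?_ (by positivity)
          rw [← nrm_eq]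
          exact h n x
      _ = _ := by ring)
  calc (1 - δ) * W = ∑ i, (1 - δ) * ‖y i‖ ^ q := by rw [hW, Finset.mul_sum]
    _ ≤ ∑ i, y i (wc {i} g) := Finset.sum_le_sum fun i _ => by rw [hg2]; exact hξ2 i
    _ ≤ nrm (fun ε : Fin n → ℤˣ => ∑ i, sg (ε i) • y i) * nrm g := by
        rw [sum_apply_wc]
        exact (le_abs_self _).trans (abs_pair_nrm _ _)
    _ ≤ nrm (fun ε : Fin n → ℤˣ => ∑ i, sg (ε i) • y i) * (W ^ (1 - 1 / q) * C) :=
        mul_le_mul_of_nonneg_left hg1 (nrm_nonneg _)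
    _ = _ := by ring

/-- The norm of a function with values in a dual space, by duality. -/
theorem nrm_le_of_pairing {Ω : Type*} [Fintype Ω] (H : Ω → (X →L[ℝ] ℝ)) {c : ℝ} (hc : 0 ≤ c)
    (h : ∀ f : Ω → X, |avg fun η => H η (f η)| ≤ c * nrm f) : nrm H ≤ c := by
  set b := avg fun η => ‖H η‖ ^ 2 with hb
  have hb0 : 0 ≤ b := avg_nonneg fun _ => sq_nonneg _
  change √b ≤ _
  apply sqrt_le_of_forall hb0 hc
  intro δ hδ0 hδ1
  choose f hf1 hf2 using fun η : Ω => exists_near_norming (H η) hδ0 hδ1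
  have h4 : nrm f ≤ √b := by
    apply Real.sqrt_le_sqrt
    exact avg_mono fun ε => by gcongr; exact hf1 ε
  calc (1 - δ) * b = avg fun η => (1 - δ) * ‖H η‖ ^ 2 := (avg_mul_left _ _).symm
    _ ≤ avg fun η => H η (f η) := avg_mono hf2
    _ ≤ c * nrm f := (le_abs_self _).trans (h f)
    _ ≤ c * √b := mul_le_mul_of_nonneg_left h4 hc

variable {Z : Type*} [NormedAddCommGroup Z] [NormedSpace ℝ Z] {I : Type} [Fintype I]
  [DecidableEq I]

theorem pairing_pre (S : Z →L[ℝ] (X →L[ℝ] ℝ)) (m : Finset I → ℝ) (f : (I → ℤˣ) → X)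
    (g : (I → ℤˣ) → Z) : ∑ A : Finset I, m A * S (wc A g) (wc A f) =
      avg fun η => mm m (fun ω => S (g ω)) η (f η) := by
  have h3 := sum_wc_pairing (V := ContinuousLinearMap.id ℝ X) f (mm m fun ω => S (g ω))
  simp only [ContinuousLinearMap.id_apply] at h3
  rw [← h3]
  refine Finset.sum_congr rfl fun A _ => ?_
  rw [wc_mm, _root_.smul_apply, smul_eq_mul, map_wc S]

/-- Multiplier bounds for operators into a dual space can be tested on the predual. -/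
theorem bd_iff_pre {S : Z →L[ℝ] (X →L[ℝ] ℝ)} {m : Finset I → ℝ} {B : ℝ} (hB : 0 ≤ B) :
    Bd S m B ↔ ∀ (f : (I → ℤˣ) → X) (g : (I → ℤˣ) → Z),
      |∑ A : Finset I, m A * S (wc A g) (wc A f)| ≤ B * (nrm f * nrm g) := by
  constructor
  · intro h f g
    rw [pairing_pre]
    refine (abs_pair_nrm _ _).trans ?_
    calc nrm (mm m fun ω => S (g ω)) * nrm f ≤ B * nrm g * nrm f :=
          mul_le_mul_of_nonneg_right (nrm_of_bd hB h g) (nrm_nonneg f)
      _ = _ := by ring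
  · intro h
    refine bd_of_nrm2 fun g => nrm_le_of_pairing _ (mul_nonneg hB (nrm_nonneg g)) fun f => ?_
    rw [← pairing_pre]
    refine (h f g).trans (le_of_eq ?_)
    ring

end

end Vale.Agent.N111
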