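import Vale.Agent.N111.Final
import Vale.Agent.P111.R2.H351.Near

/-!
The classical converse: K-convex spaces have nontrivial type, and they and their duals have
finite cotype.
-/

set_option linter.unusedSectionVars false

namespace Vale.Agent.N111

open Finset Vale.Agent.P111 Vale.Agent.P111.HM

universe u

section

variable {X : Type u} [NormedAddCommGroup X] [NormedSpace ℝ X]

theorem khintchine (m : ℕ) : √(m : ℝ) ≤ 3 * avg fun ε : Fin m → ℤˣ => |∑ i, sg (ε i)| := by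
  have h1 := TK.l2_le_l1 (X := ℝ) (m := m) fun _ => 1
  simp only [smul_eq_mul, mul_one, Real.norm_eq_abs, sq_abs] at h1
  refine le_trans (le_of_eq ?_) h1
  rw [Real.sqrt_eq_rpow]
  congr 1
  have h2 : ∀ ε : Fin m → ℤˣ, (∑ i, sg (ε i)) ^ 2 = ∑ i, ∑ j, sg (ε i) * sg (ε j) := by
    intro ε
    rw [sq, Finset.sum_mul_sum]
  rw [avg_congr h2, avg_sum]
  simp only [avg_sum, EZ.avg_sg_pair]
  simp

/-- A gain for `2 ^ m` vectors in a K-convex space. -/
theorem rsq_le_of_kconvex {K : ℝ} (h : KConvexWith K X) (m : ℕ)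
    (x : (Fin m → ℤˣ) → X) :
    (avg fun ε : Fin m → ℤˣ => |∑ i, sg (ε i)|) ^ 2 * H1.rsq x ≤
      K ^ 2 * ((Fintype.card (Fin m → ℤˣ) : ℝ) * ∑ η, ‖x η‖ ^ 2) := by
  set a : ℝ := avg fun ε : Fin m → ℤˣ => |∑ i, sg (ε i)| with ha
  set N : ℝ := (Fintype.card (Fin m → ℤˣ) : ℝ) with hN
  have hN0 : 0 < N := by
    rw [hN]; exact_mod_cast Fintype.card_pos
  set S : (Fin m → ℤˣ) → (Fin m → ℤˣ) → ℝ := fun ε η => ∑ i, sg (ε i) * sg (η i) with hS
  have hrad : ∀ (δ : (Fin m → ℤˣ) → ℤˣ) (ε : Fin m → ℤˣ),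
      rad (fun η => sg (δ η) • x η) ε = N⁻¹ • ∑ η, sg (δ η) • (S ε η • x η) := by
    intro δ ε
    simp only [rad, avg, hS, Finset.smul_sum, Finset.sum_smul, smul_smul]
    rw [Finset.sum_comm]
    refine Finset.sum_congr rfl fun η _ => Finset.sum_congr rfl fun i _ => ?_
    congr 1
    ring
  have h1 : ∀ δ : (Fin m → ℤˣ) → ℤˣ,
      (avg fun ε : Fin m → ℤˣ => ‖∑ η, sg (δ η) • (S ε η • x η)‖ ^ 2) ≤
        K ^ 2 * (N * ∑ η, ‖x η‖ ^ 2) := by
    intro δ
    have h2 := h m fun η => sg (δ η) • x η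
    rw [nrm_eq, nrm_eq] at h2
    have h3 := pow_le_pow_left₀ (nrm_nonneg _) h2 2
    rw [mul_pow, nrm_sq, nrm_sq] at h3
    simp only [hrad, norm_smul, Real.norm_eq_abs, abs_sg, one_mul, mul_pow, abs_inv,
      abs_of_pos hN0] at h3
    rw [avg_mul_left] at h3
    have h4 := mul_le_mul_of_nonneg_left h3 (by positivity : 0 ≤ N ^ 2)
    rw [← mul_assoc, ← mul_pow, mul_inv_cancel₀ hN0.ne', one_pow, one_mul] at h4
    refine h4.trans (le_of_eq ?_)
    rw [sum_eq_card_mul_avg, ← hN]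
    ring
  have h5 : ∀ ε : Fin m → ℤˣ, H1.rsq (fun η => |S ε η| • x η) = H1.rsq fun η => S ε η • x η := by
    intro ε
    rw [← H1.rsq_sign (fun η => if 0 ≤ S ε η then 1 else -1) fun η => S ε η • x η]
    congr 1
    funext η
    rw [smul_smul]
    congr 1
    split_ifs with h6
    · rw [sg_one, one_mul, abs_of_nonneg h6]
    · rw [sg_neg_one, abs_of_neg (not_le.mp h6)]
      ring
  have h7 : ∀ η : Fin m → ℤˣ, (avg fun ε : Fin m → ℤˣ => |S ε η|) = a := by
    intro η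
    rw [ha, ← avg_comp_equiv (Equiv.mulRight η) fun ε : Fin m → ℤˣ => |∑ i, sg (ε i)|]
    refine avg_congr fun ε => ?_
    simp only [hS, Equiv.coe_mulRight, Pi.mul_apply, sg_mul]
  have h8 : ∀ δ : (Fin m → ℤˣ) → ℤˣ, a ^ 2 * ‖∑ η, sg (δ η) • x η‖ ^ 2 ≤
      avg fun ε : Fin m → ℤˣ => ‖∑ η, sg (δ η) • (|S ε η| • x η)‖ ^ 2 := by
    intro δ
    refine le_trans (le_of_eq ?_) (H1.norm_avg_sq_le _)
    rw [avg_sum]
    have h9 : ∀ η, (avg fun ε : Fin m → ℤˣ => sg (δ η) • (|S ε η| • x η)) =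
        a • sg (δ η) • x η := by
      intro η
      rw [avg_smul, smul_comm a, ← h7 η]
      congr 1
      simp only [avg, Finset.sum_smul, smul_assoc]
    simp only [h9]
    rw [← Finset.smul_sum, norm_smul, mul_pow, Real.norm_eq_abs, sq_abs]
  calc a ^ 2 * H1.rsq x = avg fun δ : (Fin m → ℤˣ) → ℤˣ => a ^ 2 * ‖∑ η, sg (δ η) • x η‖ ^ 2 :=
        (avg_mul_left _ _).symm
    _ ≤ avg fun δ : (Fin m → ℤˣ) → ℤˣ =>
          avg fun ε : Fin m → ℤˣ => ‖∑ η, sg (δ η) • (|S ε η| • x η)‖ ^ 2 := avg_mono h8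
    _ = avg fun ε : Fin m → ℤˣ => H1.rsq fun η => |S ε η| • x η := avg_comm _
    _ = avg fun ε : Fin m → ℤˣ => H1.rsq fun η => S ε η • x η := avg_congr h5
    _ = avg fun δ : (Fin m → ℤˣ) → ℤˣ =>
          avg fun ε : Fin m → ℤˣ => ‖∑ η, sg (δ η) • (S ε η • x η)‖ ^ 2 := (avg_comm _).symm
    _ ≤ _ := (avg_mono h1).trans (avg_const _).le

theorem type_of_kconvex {K : ℝ} (hK : 0 ≤ K) (h : KConvexWith K X) : ∃ p, L1.HasType p X := by
  obtain ⟨m₀, hm₀⟩ := exists_nat_ge ((6 * K) ^ 2)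
  set m := m₀ + 1 with hm
  have hm1 : (6 * K) ^ 2 ≤ (m : ℝ) := by
    rw [hm]
    push_cast
    linarith
  have hm0 : (0:ℝ) < m := by
    rw [hm]
    positivity
  set a : ℝ := avg fun ε : Fin m → ℤˣ => |∑ i, sg (ε i)| with ha
  have ha1 : √(m : ℝ) ≤ 3 * a := khintchine m
  have ha0 : 0 < a := by
    have := Real.sqrt_pos.2 hm0
    linarith
  have ha2 : 2 * K ≤ a := by
    have := Real.le_sqrt_of_sq_le hm1
    linarith
  set N := Fintype.card (Fin m → ℤˣ) with hN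
  have hN2 : 2 ≤ N := by
    have : Nontrivial (Fin m → ℤˣ) := ⟨⟨1, -1, fun h => by
      have h2 : (1 : ℤˣ) = -1 := congrFun h ⟨0, by omega⟩
      exact absurd h2 (by decide)⟩⟩
    exact Fintype.one_lt_card
  have hsub : R2.H351.SubB X N (1 / 2) := by
    intro x
    let e := Fintype.equivFin (Fin m → ℤˣ)
    have h1 := rsq_le_of_kconvex h m fun η => x (e η)
    rw [H1.rsq_equiv e x, e.sum_comp fun i => ‖x i‖ ^ 2, ← ha] at h1
    have h2 : 0 ≤ (N : ℝ) * ∑ i, ‖x i‖ ^ 2 :=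
      mul_nonneg (Nat.cast_nonneg _) (Finset.sum_nonneg fun _ _ => sq_nonneg _)
    have h3 : K ^ 2 ≤ a ^ 2 * (1 / 2) ^ 2 := by
      rw [← mul_pow]
      exact pow_le_pow_left₀ hK (by linarith) 2
    have h4 := h1.trans (mul_le_mul_of_nonneg_right h3 h2)
    rw [mul_assoc] at h4
    exact le_of_mul_le_mul_left h4 (by positivity)
  obtain ⟨b, hb0, hb1, hlev⟩ := R2.H351.level_of_subB.{u} hN2 (by norm_num : (0:ℝ) < 1 / 2)
    (by norm_num)
  have h1b : 0 < 1 + b := by linarith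
  have hpa : 2 / (1 + b) * b < 1 := by
    rw [div_mul_eq_mul_div, div_lt_one h1b]
    linarith
  refine ⟨2 / (1 + b), ?_, ?_, _, fun n x => R2.H351.type_of_level (Real.sqrt_nonneg _) hb0
    (by positivity) hpa (ContinuousLinearMap.id ℝ X)
    (fun y I t ht hI hyt => hlev X hsub n y I t ht hI hyt) x⟩
  · rw [lt_div_iff₀ h1b]
    linarith
  · rw [div_le_iff₀ h1b]
    linarith

theorem kconvex_dual {K : ℝ} (hK : 0 ≤ K) (h : KConvexWith K X) :
    KConvexWith K (X →L[ℝ] ℝ) := by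
  intro n g
  have h1 : Bd (ContinuousLinearMap.id ℝ X) (fun S : Finset (Fin n) => tau #S) K := by
    refine bd_of_nrm2 fun f => ?_
    have h2 := h n f
    rw [nrm_eq, nrm_eq] at h2
    rw [mm_tau]
    refine le_trans (le_of_eq ?_) h2
    congr 1
    funext ε
    rw [rad_eq_wc]
    rfl
  have h3 := dual_nrm hK h1 g
  rw [mm_tau] at h3
  rw [nrm_eq, nrm_eq]
  refine le_trans (le_of_eq ?_) h3
  congr 1
  funext ε
  rw [rad_eq_wc]
  simp only [ContinuousLinearMap.comp_id]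

/-- Type `q'` of the space gives cotype `q` of the dual. -/
theorem cotype_dual_of_type {q T : ℝ} (hq : 2 ≤ q) (hT : 0 ≤ T)
    (h : L1.TypeWith (q / (q - 1)) T X) : CotypeWith q T (X →L[ℝ] ℝ) := by
  intro n y
  have hq1 : 1 < q := by linarith
  rw [nrm_eq]
  refine finish hq1 (Finset.sum_nonneg fun i _ => by positivity)
    (mul_nonneg hT (nrm_nonneg _)) fun δ h0 h1 => ?_
  choose x hx1 hx2 using fun i => exists_near_norming_pow hq (y i) h0 h1
  set W := ∑ i, ‖y i‖ ^ q with hW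
  have hp : 0 < q / (q - 1) := div_pos (by linarith) (by linarith)
  have h2 : nrm (fun ε : Fin n → ℤˣ => ∑ i, sg (ε i) • x i) ≤ T * W ^ (1 - 1 / q) := by
    rw [← nrm_eq]
    refine (h n x).trans (mul_le_mul_of_nonneg_left ?_ hT)
    rw [hW, ← sum_pow_conj hq1 _ fun i => norm_nonneg (y i)]
    refine Real.rpow_le_rpow (Finset.sum_nonneg fun i _ => by positivity) ?_ (by positivity)
    exact Finset.sum_le_sum fun i _ => Real.rpow_le_rpow (norm_nonneg _) (hx1 i) hp.le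
  calc (1 - δ) * W = ∑ i, (1 - δ) * ‖y i‖ ^ q := by rw [hW, Finset.mul_sum]
    _ ≤ ∑ i, y i (wc {i} fun ε : Fin n → ℤˣ => ∑ i, sg (ε i) • x i) :=
        Finset.sum_le_sum fun i _ => by rw [SY.wc_const_sum]; exact hx2 i
    _ ≤ nrm (fun ε : Fin n → ℤˣ => ∑ i, sg (ε i) • y i) *
          nrm (fun ε : Fin n → ℤˣ => ∑ i, sg (ε i) • x i) := by
        rw [sum_apply_wc]
        exact (le_abs_self _).trans (abs_pair_nrm _ _)
    _ ≤ nrm (fun ε : Fin n → ℤˣ => ∑ i, sg (ε i) • y i) * (T * W ^ (1 - 1 / q)) :=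
        mul_le_mul_of_nonneg_left h2 (nrm_nonneg _)
    _ = _ := by ring

theorem hasCotype_dual_of_conj {q : ℝ} (hq : 2 ≤ q) (h : L1.HasType (q / (q - 1)) X) :
    HasCotype q (X →L[ℝ] ℝ) := by
  obtain ⟨-, -, T, hT⟩ := h
  exact ⟨hq, max T 0, cotype_dual_of_type hq (le_max_right _ _)
    (TypeWith.mono' hT (le_max_left _ _))⟩

theorem hasCotype_dual_of_type {p : ℝ} (h : L1.HasType p X) : ∃ q, HasCotype q (X →L[ℝ] ℝ) := by
  have hp1 : 0 < p - 1 := by linarith [h.1]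
  have hq : 2 ≤ p / (p - 1) := by
    rw [le_div_iff₀ hp1]
    linarith [h.2.1]
  refine ⟨p / (p - 1), hasCotype_dual_of_conj hq ?_⟩
  have h1 : p / (p - 1) / (p / (p - 1) - 1) = p := by
    have h2 : p / (p - 1) - 1 = 1 / (p - 1) := by
      field_simp
      ring
    rw [h2]
    field_simp
  rwa [h1]

/-- The classical converse. -/
theorem cotypes_of_kconvex (h : IsKConvex X) :
    (∃ q, HasCotype q X) ∧ ∃ r, HasCotype r (X →L[ℝ] ℝ) := by
  obtain ⟨K, hK⟩ := h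
  have h1 : KConvexWith (max K 0) X := fun n f => (hK n f).trans
    (mul_le_mul_of_nonneg_right (le_max_left _ _)
      (Real.rpow_nonneg (avg_nonneg fun _ => sq_nonneg _) _))
  have h0 : 0 ≤ max K 0 := le_max_right _ _
  constructor
  · obtain ⟨p, hp⟩ := type_of_kconvex h0 (kconvex_dual h0 h1)
    obtain ⟨q, hq2, C, hC⟩ := hasCotype_dual_of_type hp
    have h2 : CotypeWith q (max C 0) ((X →L[ℝ] ℝ) →L[ℝ] ℝ) :=
      EZ.CotypeWith.mono' hC (le_max_left _ _)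
    exact ⟨q, hq2, max C 0, TK.cotypeWith_of_embed (by linarith) (le_max_right _ _) h2
      (NormedSpace.inclusionInDoubleDualLi (E := X) ℝ).toLinearMap
      (fun y => ((NormedSpace.inclusionInDoubleDualLi (E := X) ℝ).norm_map y).ge)
      (fun y => ((NormedSpace.inclusionInDoubleDualLi (E := X) ℝ).norm_map y).le)⟩
  · obtain ⟨p, hp⟩ := type_of_kconvex h0 h1
    exact hasCotype_dual_of_type hp

end

end Vale.Agent.N111
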