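import Vale.Agent.N111.Apriori

/-!
The dimension free bound for the number of large Fourier coefficients.
-/

set_option linter.unusedSectionVars false

namespace Vale.Agent.N111

open Finset Filter Topology Vale.Agent.P111 Vale.Agent.P111.TK

universe u v

theorem bern {ν : ℝ} (hν : 1 < ν) : ∃ c : ℝ, 0 < c ∧ ∀ j : ℕ, (j : ℝ) + 1 ≤ c * ν ^ j := by
  refine ⟨1 + (ν - 1)⁻¹, by have : 0 < ν - 1 := by linarith
                            positivity, fun j => ?_⟩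
  have h0 : 0 < ν - 1 := by linarith
  have h1 : 1 + (j : ℝ) * (ν - 1) ≤ ν ^ j := by
    have := one_add_mul_le_pow (by linarith : (-2:ℝ) ≤ ν - 1) j
    rwa [add_sub_cancel] at this
  have h2 : 1 ≤ ν ^ j := one_le_pow₀ hν.le
  have h3 : (j : ℝ) ≤ (ν - 1)⁻¹ * ν ^ j := by
    rw [inv_mul_eq_div, le_div_iff₀ h0]
    linarith
  rw [add_mul, one_mul]
  linarith

/-- The arithmetic of the iteration, with a weak a priori bound. -/
theorem arith2 (C₀ : ℝ) (k₀ : ℕ) (hC₀ : 1 ≤ C₀) : ∃ K : ℕ → ℝ, ∀ g : ℕ → ℕ,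
    g 0 = 0 → (∀ μ : ℝ, 1 < μ → ∃ c : ℝ, ∀ j, (g j : ℝ) ≤ Real.exp (c * μ ^ j)) →
    (∀ j, 1 ≤ j → C₀ * (1 + 2 ^ j) * (1 + g (j - 1)) ≤ g j →
      (g j : ℝ) ^ 2 ≤ C₀ * g (j + k₀)) → ∀ j, (g j : ℝ) ≤ K j := by
  set lam : ℝ := (2:ℝ) ^ (1 / ((k₀ + 1 : ℕ) : ℝ)) with hlam
  have hk : (0:ℝ) < ((k₀ + 1 : ℕ) : ℝ) := by positivity
  have hlam1 : 1 < lam := Real.one_lt_rpow one_lt_two (by positivity)
  have hlamk : lam ^ (k₀ + 1) = 2 := by
    rw [hlam, ← Real.rpow_natCast, ← Real.rpow_mul (by norm_num), one_div,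
      inv_mul_cancel₀ hk.ne', Real.rpow_one]
  have hlamk' : lam ^ k₀ ≤ 2 := by
    rw [← hlamk]
    exact pow_le_pow_right₀ hlam1.le (Nat.le_succ _)
  obtain ⟨c₁, hc₁, hbern⟩ := bern hlam1
  have hl0 : 0 < lam - 1 := by linarith
  set B : ℝ := 8 * C₀ * c₁ / (lam - 1) with hB
  have hB0 : 0 < B := by positivity
  have hkey : ∀ m : ℕ, 2 * (C₀ * (1 + 2 ^ (m + 1))) ≤ Real.exp (B * lam ^ m * (lam - 1)) := by
    intro m
    have h1 : 8 * C₀ * ((m:ℝ) + 1) ≤ B * lam ^ m * (lam - 1) := by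
      calc 8 * C₀ * ((m:ℝ) + 1) ≤ 8 * C₀ * (c₁ * lam ^ m) :=
            mul_le_mul_of_nonneg_left (hbern m) (by positivity)
        _ = _ := by rw [hB]; field_simp
    refine le_trans ?_ (Real.exp_le_exp.mpr h1)
    have h2 : Real.exp (8 * C₀ * ((m:ℝ) + 1)) = Real.exp (8 * C₀) ^ (m + 1) := by
      rw [← Real.exp_nat_mul]
      congr 1
      push_cast
      ring
    have h3 : 8 * C₀ ≤ Real.exp (8 * C₀) := by
      have := Real.add_one_le_exp (8 * C₀)
      linarith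
    rw [h2]
    refine le_trans ?_ (pow_le_pow_left₀ (by positivity) h3 _)
    rw [mul_pow]
    have h4 : C₀ ≤ C₀ ^ (m + 1) := le_self_pow₀ hC₀ (Nat.succ_ne_zero m)
    have h5 : 2 * (1 + (2:ℝ) ^ (m + 1)) ≤ 8 ^ (m + 1) := by
      have e1 : (8:ℝ) ^ (m + 1) = 2 ^ (m + 1) * 4 ^ (m + 1) := by rw [← mul_pow]; norm_num
      have e2 : (2:ℝ) ≤ 2 ^ (m + 1) := le_self_pow₀ one_le_two (Nat.succ_ne_zero m)
      have e3 : (4:ℝ) ≤ 4 ^ (m + 1) := le_self_pow₀ (by norm_num) (Nat.succ_ne_zero m)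
      rw [e1]
      nlinarith
    calc 2 * (C₀ * (1 + 2 ^ (m + 1))) = 2 * (1 + 2 ^ (m + 1)) * C₀ := by ring
      _ ≤ 8 ^ (m + 1) * C₀ ^ (m + 1) := mul_le_mul h5 h4 (by linarith) (by positivity)
  refine ⟨fun j => C₀ * Real.exp (B * lam ^ j), ?_⟩
  intro g hg0 hgc hstep J
  by_contra hcon
  rw [not_le] at hcon
  have hJpos : (0:ℝ) < g J := lt_trans (by positivity) hcon
  set h : ℕ → ℝ := fun j => g j / Real.exp (B * lam ^ j) with hh
  have hJ : 0 < h J := by rw [hh]; positivity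
  have hlim : Tendsto h atTop (𝓝 0) := by
    set μ : ℝ := (1 + lam) / 2 with hμ
    have hμ1 : 1 < μ := by rw [hμ]; linarith
    have hμ2 : μ < lam := by rw [hμ]; linarith
    obtain ⟨c, hc⟩ := hgc μ hμ1
    have h1 : Tendsto (fun j : ℕ => c * (μ / lam) ^ j) atTop (𝓝 0) := by
      have := (tendsto_pow_atTop_nhds_zero_of_lt_one (by positivity : (0:ℝ) ≤ μ / lam)
        ((div_lt_one (by linarith)).mpr hμ2)).const_mul c
      simpa using this
    have h2 : ∀ᶠ j : ℕ in atTop, c * (μ / lam) ^ j < B / 2 :=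
      h1.eventually_lt_const (by positivity)
    have h3 : Tendsto (fun j : ℕ => Real.exp (-(B / 2 * lam ^ j))) atTop (𝓝 0) :=
      Real.tendsto_exp_neg_atTop_nhds_zero.comp
        ((tendsto_pow_atTop_atTop_of_one_lt hlam1).const_mul_atTop (by positivity))
    refine squeeze_zero' (Eventually.of_forall fun j => ?_) ?_ h3
    · rw [hh]; positivity
    · filter_upwards [h2] with j hj
      rw [hh]
      simp only
      rw [div_le_iff₀ (Real.exp_pos _), ← Real.exp_add]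
      refine (hc j).trans (Real.exp_le_exp.mpr ?_)
      have h4 : c * μ ^ j = c * (μ / lam) ^ j * lam ^ j := by
        rw [mul_assoc, ← mul_pow, div_mul_cancel₀ _ (by linarith : lam ≠ 0)]
      have h5 : c * (μ / lam) ^ j * lam ^ j ≤ B / 2 * lam ^ j :=
        mul_le_mul_of_nonneg_right hj.le (by positivity)
      rw [h4]
      linarith
  obtain ⟨m, hm⟩ := SF.exists_argmax hJ hlim
  have hm' : ∀ j, (g j : ℝ) * Real.exp (B * lam ^ m) ≤ g m * Real.exp (B * lam ^ j) := by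
    intro j
    have := hm j
    rw [hh] at this
    simp only at this
    rwa [div_le_div_iff₀ (Real.exp_pos _) (Real.exp_pos _)] at this
  have hmpos : (0:ℝ) < g m := by
    have := hm' J
    have h1 : (0:ℝ) < (g J : ℝ) * Real.exp (B * lam ^ m) := by positivity
    have h2 : (0:ℝ) < Real.exp (B * lam ^ J) := Real.exp_pos _
    by_contra hc
    rw [not_lt] at hc
    nlinarith
  obtain ⟨m', rfl⟩ : ∃ m', m = m' + 1 := by
    rcases Nat.eq_zero_or_pos m with h0 | h0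
    · rw [h0, hg0] at hmpos
      simp at hmpos
    · exact ⟨m - 1, by omega⟩
  have hprev : 2 * (C₀ * (1 + 2 ^ (m' + 1))) * g m' ≤ g (m' + 1) := by
    have e1 := hm' m'
    have e2 : Real.exp (B * lam ^ (m' + 1)) =
        Real.exp (B * lam ^ m' * (lam - 1)) * Real.exp (B * lam ^ m') := by
      rw [← Real.exp_add]
      congr 1
      ring
    rw [e2, ← mul_assoc] at e1
    have e3 := le_of_mul_le_mul_right e1 (Real.exp_pos _)
    refine le_trans ?_ e3
    rw [mul_comm]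
    exact mul_le_mul_of_nonneg_left (hkey m') (Nat.cast_nonneg _)
  have hgm : (g (m' + 1) : ℝ) ≤ C₀ * Real.exp (B * lam ^ (m' + 1)) := by
    by_cases hcase : 2 * (C₀ * (1 + 2 ^ (m' + 1))) ≤ (g (m' + 1) : ℝ)
    · have h1 : C₀ * (1 + 2 ^ (m' + 1)) * (1 + g (m' + 1 - 1)) ≤ g (m' + 1) := by
        rw [Nat.add_sub_cancel]
        linarith
      have h2 := hstep (m' + 1) (Nat.le_add_left 1 m') h1
      have h3 := hm' (m' + 1 + k₀)
      have e1 : Real.exp (B * lam ^ (m' + 1 + k₀)) ≤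
          Real.exp (B * lam ^ (m' + 1)) * Real.exp (B * lam ^ (m' + 1)) := by
        rw [← Real.exp_add]
        refine Real.exp_le_exp.mpr ?_
        rw [pow_add]
        have : 0 < B * lam ^ (m' + 1) := by positivity
        nlinarith
      have h4 : (g (m' + 1 + k₀) : ℝ) ≤ g (m' + 1) * Real.exp (B * lam ^ (m' + 1)) := by
        have h5 := h3.trans (mul_le_mul_of_nonneg_left e1 hmpos.le)
        rw [← mul_assoc] at h5
        exact le_of_mul_le_mul_right h5 (Real.exp_pos _)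
      have h5 : (g (m' + 1) : ℝ) * g (m' + 1) ≤
          (C₀ * Real.exp (B * lam ^ (m' + 1))) * g (m' + 1) := by
        calc (g (m' + 1) : ℝ) * g (m' + 1) = (g (m' + 1) : ℝ) ^ 2 := (sq _).symm
          _ ≤ C₀ * g (m' + 1 + k₀) := h2
          _ ≤ C₀ * (g (m' + 1) * Real.exp (B * lam ^ (m' + 1))) :=
            mul_le_mul_of_nonneg_left h4 (by linarith)
          _ = _ := by ring
      exact le_of_mul_le_mul_right h5 hmpos
    · rw [not_le] at hcase
      have e1 : Real.exp (B * lam ^ m' * (lam - 1)) ≤ Real.exp (B * lam ^ (m' + 1)) := by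
        refine Real.exp_le_exp.mpr ?_
        rw [pow_succ]
        have : 0 < B * lam ^ m' := by positivity
        nlinarith
      have e2 : Real.exp (B * lam ^ (m' + 1)) ≤ C₀ * Real.exp (B * lam ^ (m' + 1)) :=
        le_mul_of_one_le_left (Real.exp_pos _).le hC₀
      linarith [hkey m']
  have e4 : (g J : ℝ) * Real.exp (B * lam ^ (m' + 1)) ≤
      (C₀ * Real.exp (B * lam ^ J)) * Real.exp (B * lam ^ (m' + 1)) := by
    refine (hm' J).trans ((mul_le_mul_of_nonneg_right hgm (Real.exp_pos _).le).trans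
      (le_of_eq ?_))
    ring
  exact absurd (le_of_mul_le_mul_right e4 (Real.exp_pos _)) (not_le.mpr hcon)

section

variable {X Y : Type*} [NormedAddCommGroup X] [NormedSpace ℝ X] [NormedAddCommGroup Y]
  [NormedSpace ℝ Y]

/-- The growth of the a priori bound. -/
theorem growth {T : X →L[ℝ] Y} {r C A ρ : ℝ} (hr : 2 ≤ r) (hC : 1 ≤ C)
    (hX : CotypeWith r C (X →L[ℝ] ℝ)) (hA : 0 ≤ A) (hρ : 0 ≤ ρ) (hT : MP T A ρ) {μ : ℝ}
    (hμ : 1 < μ) : ∃ c : ℝ, ∀ j : ℕ, CBo T (2 * C / 2 ^ j) (Real.exp (c * μ ^ j)) := by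
  have hC0 : 0 ≤ C := by linarith
  obtain ⟨R, hR⟩ := exists_nat_ge r
  set ν : ℝ := √μ with hν
  have hν1 : 1 < ν := by
    rw [hν, Real.lt_sqrt zero_le_one]
    linarith
  have hνμ : ∀ j : ℕ, ν ^ j * ν ^ j = μ ^ j := by
    intro j
    rw [← mul_pow, hν, Real.mul_self_sqrt (by linarith)]
  obtain ⟨k₀, hk₀⟩ := pow_unbounded_of_one_lt ((2:ℝ) ^ R) hν1
  set k := k₀ + 1 with hk
  have hk1 : (2:ℝ) ^ R ≤ ν ^ k :=
    hk₀.le.trans (pow_le_pow_right₀ hν1.le (Nat.le_succ _))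
  obtain ⟨a₁, ha₁⟩ := exists_nat_gt ((C * (A * ρ)) ^ R)
  have ha₁0 : 1 ≤ a₁ := by
    have : (0:ℝ) < a₁ := lt_of_le_of_lt (by positivity) ha₁
    exact_mod_cast this
  set a₂ : ℝ := (C ^ k * (A * ρ ^ k)) ^ R + 1 with ha₂
  have ha₂1 : 1 ≤ a₂ := by
    have : 0 ≤ (C ^ k * (A * ρ ^ k)) ^ R := by positivity
    linarith
  obtain ⟨c₁, hc₁, hbern⟩ := bern hν1
  refine ⟨k * (2 * a₂) * ((2 * a₁ + R) * c₁), fun j D θ hθ => ?_⟩
  set e : ℝ := 2 * C / 2 ^ j with he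
  have he0 : 0 ≤ e := by positivity
  have heR : 1 ≤ (2:ℝ) ^ (j * R) * e ^ R := by
    rw [pow_mul, ← mul_pow]
    refine one_le_pow₀ ?_
    rw [he, mul_div_cancel₀ _ (by positivity)]
    linarith
  have hνj : 1 ≤ ν ^ j := one_le_pow₀ hν1.le
  set n₀ : ℕ := ⌈a₂ * ν ^ j⌉₊ with hn₀
  have hn₀1 : a₂ * ν ^ j ≤ n₀ := Nat.le_ceil _
  have h1a : 1 ≤ a₂ * ν ^ j := one_le_mul_of_one_le_of_one_le ha₂1 hνj
  have hn₀2 : (n₀ : ℝ) ≤ 2 * a₂ * ν ^ j := by
    have := (Nat.ceil_lt_add_one (by positivity : 0 ≤ a₂ * ν ^ j)).le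
    linarith
  have hn₀3 : 1 ≤ n₀ := by
    have : (1:ℝ) ≤ n₀ := h1a.trans hn₀1
    exact_mod_cast this
  have h1 := apriori (k := k) (m₀ := a₁ * 2 ^ (j * R)) (n₀ := n₀) hr hC0 hX hA hρ hT hR he0
    (Nat.one_le_iff_ne_zero.mpr (by positivity)) hn₀3 (by
      push_cast
      rw [mul_assoc]
      exact lt_of_lt_of_le ha₁ (le_mul_of_one_le_right (Nat.cast_nonneg _) heR)) (by
      have h2 : a₂ * 2 ^ (j * R) ≤ (n₀ : ℝ) ^ k := by
        refine le_trans ?_ (pow_le_pow_left₀ (by positivity) hn₀1 k)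
        rw [mul_pow]
        refine mul_le_mul (le_self_pow₀ ha₂1 (Nat.succ_ne_zero _)) ?_ (by positivity)
          (by positivity)
        rw [mul_comm j R, pow_mul, ← pow_mul ν, mul_comm j k, pow_mul]
        exact pow_le_pow_left₀ (by positivity) hk1 j
      calc (C ^ k * (A * ρ ^ k)) ^ R < a₂ := by rw [ha₂]; linarith
        _ ≤ a₂ * (2 ^ (j * R) * e ^ R) := le_mul_of_one_le_right (by linarith) heR
        _ = a₂ * 2 ^ (j * R) * e ^ R := by ring
        _ ≤ _ := mul_le_mul_of_nonneg_right h2 (by positivity)) hθ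
  have h2 : (cno T θ e : ℝ) ≤ (2 * (a₁ * 2 ^ (j * R))) ^ (k * n₀) := by exact_mod_cast h1
  refine h2.trans ?_
  have h3 : (2 * (a₁ * 2 ^ (j * R)) : ℝ) ≤ Real.exp ((2 * a₁ + R) * c₁ * ν ^ j) := by
    have e1 : (2 * a₁ : ℝ) ≤ Real.exp (2 * a₁) := by
      have := Real.add_one_le_exp (2 * a₁ : ℝ)
      linarith
    have e2 : (2:ℝ) ^ (j * R) ≤ Real.exp ((j * R : ℕ) * 1) := by
      rw [Real.exp_nat_mul]
      refine pow_le_pow_left₀ (by norm_num) ?_ _
      have := Real.add_one_le_exp (1:ℝ)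
      linarith
    calc (2 * (a₁ * 2 ^ (j * R)) : ℝ) = 2 * a₁ * 2 ^ (j * R) := by ring
      _ ≤ Real.exp (2 * a₁) * Real.exp ((j * R : ℕ) * 1) :=
          mul_le_mul e1 e2 (by positivity) (by positivity)
      _ = Real.exp (2 * a₁ + (j * R : ℕ) * 1) := (Real.exp_add _ _).symm
      _ ≤ _ := by
          refine Real.exp_le_exp.mpr ?_
          push_cast
          have e3 : (2 * a₁ + R : ℝ) * ((j:ℝ) + 1) ≤ (2 * a₁ + R) * (c₁ * ν ^ j) :=
            mul_le_mul_of_nonneg_left (hbern j) (by positivity)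
          have e4 : (0:ℝ) ≤ a₁ * j := by positivity
          have e5 : (0:ℝ) ≤ R := by positivity
          nlinarith
  refine (pow_le_pow_left₀ (by positivity) h3 _).trans ?_
  rw [← Real.exp_nat_mul]
  refine Real.exp_le_exp.mpr ?_
  push_cast
  rw [← hνμ j]
  have h4 : 0 ≤ (k:ℝ) * ((2 * a₁ + R) * c₁ * ν ^ j) := by positivity
  calc (k:ℝ) * n₀ * ((2 * a₁ + R) * c₁ * ν ^ j) = (k * ((2 * a₁ + R) * c₁ * ν ^ j)) * n₀ := by
        ring
    _ ≤ (k * ((2 * a₁ + R) * c₁ * ν ^ j)) * (2 * a₂ * ν ^ j) :=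
        mul_le_mul_of_nonneg_left hn₀2 h4
    _ = _ := by ring

theorem cno_mono {D : ℕ} (T : X →L[ℝ] Y) (θ : (Fin D → ℤˣ) → (Y →L[ℝ] ℝ)) {e e' : ℝ}
    (h : e ≤ e') : cno T θ e' ≤ cno T θ e := by
  refine Finset.card_le_card fun b hb => ?_
  rw [Finset.mem_filter] at hb ⊢
  exact ⟨hb.1, h.trans hb.2⟩

theorem CBo.mono {T : X →L[ℝ] Y} {e e' n : ℝ} (h : CBo T e n) (he : e ≤ e') : CBo T e' n :=
  fun D θ hθ => le_trans (by exact_mod_cast cno_mono T θ he) (h D θ hθ)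

/-- The maximum is attained. -/
theorem exists_max2 {T : X →L[ℝ] Y} {e : ℝ} {c : ℝ} (hc : CBo T e c) : ∃ g : ℕ, CBo T e g ∧
    ∃ (D : ℕ) (θ : (Fin D → ℤˣ) → (Y →L[ℝ] ℝ)), (∀ x, ‖θ x‖ ≤ 1) ∧ g ≤ cno T θ e := by
  classical
  obtain ⟨n, hn⟩ := exists_nat_ge c
  have hex : ∃ n : ℕ, CBo T e n := ⟨n, fun D θ hθ => (hc D θ hθ).trans hn⟩
  refine ⟨Nat.find hex, Nat.find_spec hex, ?_⟩
  rcases Nat.eq_zero_or_pos (Nat.find hex) with h0 | h0
  · exact ⟨0, 0, fun x => by simp, by rw [h0]; exact Nat.zero_le _⟩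
  · have h1 := Nat.find_min hex (Nat.sub_lt h0 Nat.one_pos)
    unfold CBo at h1
    push Not at h1
    obtain ⟨D, θ, hθ, h2⟩ := h1
    refine ⟨D, θ, hθ, ?_⟩
    have h3 : Nat.find hex - 1 < cno T θ e := Nat.cast_lt.mp h2
    omega

/-- The Rademacher functions are characters. -/
theorem rad_le_cno (T : X →L[ℝ] Y) {D : ℕ} (θ : (Fin D → ℤˣ) → (Y →L[ℝ] ℝ)) (e : ℝ) :
    #{k : Fin D | e ≤ ‖avg fun x => sg (x k) • (θ x).comp T‖} ≤ cno T θ e := by
  classical
  refine Finset.card_le_card_of_injOn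
    (fun k => (fun i => if i = k then (-1 : ℤˣ) else 1 : Fin D → ℤˣ)) ?_ ?_
  · intro k hk
    have hk' : e ≤ ‖avg fun x => sg (x k) • (θ x).comp T‖ := by simpa using hk
    rw [Finset.coe_filter]
    refine ⟨Finset.mem_univ _, ?_⟩
    have h1 : fo T θ (fun i => if i = k then (-1 : ℤˣ) else 1) =
        avg fun x => sg (x k) • (θ x).comp T := by
      unfold fo
      refine avg_congr fun x => ?_
      congr 2
      rw [TK.chi_eq, Finset.prod_eq_single k]
      · simp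
      · intro i _ hi
        simp [hi]
      · intro h
        exact absurd (Finset.mem_univ _) h
    change e ≤ ‖fo T θ (fun i => if i = k then (-1 : ℤˣ) else 1)‖
    rw [h1]
    exact hk'
  · intro k _ k' _ h
    by_contra hne
    have := congrFun h k
    simp only [if_true, if_neg hne] at this
    exact absurd this (by decide)

/-- At most `K` Rademacher coefficients are large, for operators from `X` to `Y`. -/
def Count (K : ℝ) (X Y : Type*) [NormedAddCommGroup X] [NormedSpace ℝ X] [NormedAddCommGroup Y]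
    [NormedSpace ℝ Y] : Prop :=
  ∀ T : X →L[ℝ] Y, (∃ A ρ : ℝ, 0 ≤ A ∧ 0 ≤ ρ ∧ MP T A ρ) → ‖T‖ ≤ 1 →
    ∀ (D : ℕ) (θ : (Fin D → ℤˣ) → (Y →L[ℝ] ℝ)), (∀ x, ‖θ x‖ ≤ 1) →
      (#{k : Fin D | 1 / 10000000 ≤ ‖avg fun x => sg (x k) • (θ x).comp T‖} : ℝ) ≤ K

end

/-- The bound for the number of large coefficients. -/
theorem count_two {q r C : ℝ} (hq2 : 2 ≤ q) (hr2 : 2 ≤ r) (hC : 1 ≤ C) :
    ∃ K : ℕ → ℝ, ∀ (X : Type u) (Y : Type v) [NormedAddCommGroup X] [NormedSpace ℝ X]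
      [NormedAddCommGroup Y] [NormedSpace ℝ Y] (T : X →L[ℝ] Y),
      CotypeWith q C Y → CotypeWith r C (X →L[ℝ] ℝ) → ‖T‖ ≤ C →
      (∃ A ρ : ℝ, 0 ≤ A ∧ 0 ≤ ρ ∧ MP T A ρ) → ∀ j : ℕ, CBo T (2 * C / 2 ^ j) (K j) := by
  obtain ⟨C₀, K₀, hC₀, hK₀, hstep⟩ := step_two.{u, v} SF.fibres q r C hq2 hr2 hC
  have hC0 : 0 < C := by linarith
  obtain ⟨k₀, hk₀⟩ := pow_unbounded_of_one_lt K₀ (one_lt_two (α := ℝ))
  obtain ⟨K, hK⟩ := arith2 C₀ k₀ hC₀
  refine ⟨K, ?_⟩
  intro X Y _ _ _ _ T hq hr hT ⟨A, ρ, hA, hρ, hMP⟩ j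
  obtain ⟨c₂, hcount⟩ := growth hr2 hC hr hA hρ hMP one_lt_two
  choose g hg using fun j => exists_max2 (hcount j)
  have hg1 : ∀ j, CBo T (2 * C / 2 ^ j) (g j) := fun j => (hg j).1
  have hgj : (g j : ℝ) ≤ K j := by
    refine hK g ?_ ?_ ?_ j
    · obtain ⟨D, θ, hθ, h1⟩ := (hg 0).2
      have h2 : cno T θ (2 * C / 2 ^ 0) = 0 := by
        unfold cno
        rw [Finset.card_eq_zero, Finset.filter_eq_empty_iff]
        intro b _
        have := norm_fo_le hT θ hθ b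
        rw [pow_zero, div_one]
        linarith
      omega
    · intro μ hμ
      obtain ⟨c, hc⟩ := growth hr2 hC hr hA hρ hMP hμ
      refine ⟨c, fun j => ?_⟩
      obtain ⟨D, θ, hθ, h1⟩ := (hg j).2
      exact le_trans (by exact_mod_cast h1) (hc j D θ hθ)
    · intro j hj h1
      obtain ⟨D, θ, hθ, h2⟩ := (hg j).2
      have hcntj : (g j : ℝ) = cno T θ (2 * C / 2 ^ j) :=
        le_antisymm (by exact_mod_cast h2) (hg1 j D θ hθ)
      obtain ⟨R, hR⟩ : ∃ R : ℝ, R = 2 ^ j / (2 * C) := ⟨_, rfl⟩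
      have hR0 : 0 < R := by rw [hR]; positivity
      have hR1 : 1 / R = 2 * C / 2 ^ j := by rw [hR, one_div_div]
      have hR2 : 2 / R = 2 * C / 2 ^ (j - 1) := by
        have e1 : (2:ℝ) ^ j = 2 * 2 ^ (j - 1) := by
          rw [← pow_succ']
          congr 1
          omega
        rw [hR, e1]
        field_simp
      have hRj : R ≤ 2 ^ j := by
        rw [hR]
        refine div_le_self (by positivity) ?_
        linarith
      have hcb : CBo T (2 / R) (g (j - 1)) := by rw [hR2]; exact hg1 (j - 1)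
      obtain ⟨D', θ', hθ', h3⟩ := hstep X Y T hq hr hT R (g (j - 1)) hR0 (Nat.cast_nonneg _) hcb
        D θ hθ (by
          rw [hR1, ← hcntj]
          refine le_trans ?_ h1
          have e2 : (0:ℝ) ≤ 1 + g (j - 1) := by positivity
          refine mul_le_mul_of_nonneg_right ?_ e2
          refine mul_le_mul_of_nonneg_left ?_ (by linarith)
          linarith)
      rw [hR1, ← hcntj] at h3
      refine h3.trans (mul_le_mul_of_nonneg_left ?_ (by linarith))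
      have h4 : 2 * C / 2 ^ (j + k₀) ≤ 1 / (K₀ * R) := by
        have e3 : 1 / (K₀ * R) = 2 * C / (K₀ * 2 ^ j) := by
          rw [hR]
          field_simp
        rw [e3, pow_add, mul_comm ((2:ℝ) ^ j)]
        refine div_le_div_of_nonneg_left (by positivity) (by positivity) ?_
        exact mul_le_mul_of_nonneg_right hk₀.le (by positivity)
      exact le_trans (by exact_mod_cast cno_mono T θ' h4) (hg1 (j + k₀) D' θ' hθ')
  exact fun D θ hθ => (hg1 j D θ hθ).trans hgj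

/-- The count of the large Rademacher coefficients. -/
theorem count_rad {q r C : ℝ} (hq2 : 2 ≤ q) (hr2 : 2 ≤ r) (hC : 1 ≤ C) :
    ∃ K : ℝ, ∀ (X : Type u) (Y : Type v) [NormedAddCommGroup X] [NormedSpace ℝ X]
      [NormedAddCommGroup Y] [NormedSpace ℝ Y],
      CotypeWith q C Y → CotypeWith r C (X →L[ℝ] ℝ) → Count K X Y := by
  obtain ⟨K, hK⟩ := count_two.{u, v} hq2 hr2 hC
  have hC0 : 0 < C := by linarith
  obtain ⟨j, hj⟩ := pow_unbounded_of_one_lt (2 * C * 10000000) (one_lt_two (α := ℝ))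
  refine ⟨K j, ?_⟩
  intro X Y _ _ _ _ hq hr T hfd hT D θ hθ
  have h1 := (hK X Y T hq hr (hT.trans hC) hfd j).mono (e' := 1 / 10000000) (by
    rw [div_le_div_iff₀ (by positivity) (by norm_num)]
    linarith) D θ hθ
  exact le_trans (by exact_mod_cast rad_le_cno T θ _) h1

end Vale.Agent.N111
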