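import Vale.Agent.N111.Approx

/-!
Consequences: K-convexity, type, and the distance to `ℓ₁^s`.
-/

set_option linter.unusedSectionVars false

namespace Vale.Agent.N111

open Finset Vale.Agent.P111 Vale.Agent.P111.HM Vale.Agent.P111.L1

universe u v

section

variable {X Y : Type*} [NormedAddCommGroup X] [NormedSpace ℝ X] [NormedAddCommGroup Y]
  [NormedSpace ℝ Y]

theorem sum_tau_smul {Λ : Type} [Fintype Λ] [DecidableEq Λ] (φ : Finset Λ → X) :
    ∑ A : Finset Λ, tau #A • φ A = ∑ l, φ {l} := by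
  have h : ∀ A : Finset Λ, tau #A • φ A = ∑ l, if A = {l} then φ {l} else 0 := by
    intro A
    unfold tau
    split_ifs with h1
    · obtain ⟨a, rfl⟩ := Finset.card_eq_one.mp h1
      simp [Finset.singleton_inj]
    · rw [zero_smul]
      symm
      apply Finset.sum_eq_zero
      intro l _
      rw [if_neg]
      rintro rfl
      simp at h1
  simp only [h]
  rw [Finset.sum_comm]
  simp

theorem rad_eq_wc {n : ℕ} (h : (Fin n → ℤˣ) → X) (ε : Fin n → ℤˣ) :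
    rad h ε = ∑ i, sg (ε i) • wc {i} h := by
  simp only [rad, wc, walsh_singleton]

theorem mm_tau {n : ℕ} (h : (Fin n → ℤˣ) → X) :
    mm (fun S => tau #S) h = fun ε => ∑ i, sg (ε i) • wc {i} h := by
  funext ε
  simp only [mm, mul_smul]
  rw [sum_tau_smul fun S => walsh S ε • wc S h]
  simp only [walsh_singleton]

theorem MP.bd_tau {V : X →L[ℝ] Y} {A ρ : ℝ} (h : MP V A ρ) (n : ℕ) :
    Bd V (fun S : Finset (Fin n) => tau #S) (A * ρ) := by
  have h1 := h (Fin n) Unit {()} fun _ => ()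
  rw [Finset.card_singleton, pow_one] at h1
  exact h1.congr fun S => by simp [pm]

theorem opK_of_bd {V : X →L[ℝ] Y} {B : ℝ} (hB : 0 ≤ B)
    (h : ∀ n, Bd V (fun S : Finset (Fin n) => tau #S) B) : OpKConvexWith B V := by
  intro n f
  rw [nrm_eq, nrm_eq]
  refine le_trans (le_of_eq ?_) (nrm_of_bd hB (h n) f)
  rw [mm_tau]
  congr 1
  funext ε
  rw [rad_eq_wc]
  simp only [map_sum, map_smul, map_wc]

theorem opType_of_bd {V : X →L[ℝ] Y} {B r C : ℝ} (hr : 2 ≤ r) (hC : 0 ≤ C) (hB : 0 ≤ B)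
    (h : ∀ n, Bd V (fun S : Finset (Fin n) => tau #S) B)
    (hX : P111.CotypeWith r C (X →L[ℝ] ℝ)) : OpTypeWith (r / (r - 1)) (B * C) V := by
  intro n x
  rw [nrm_eq]
  set H : (Fin n → ℤˣ) → Y := fun ε => ∑ i, sg (ε i) • V (x i) with hH
  set b := avg fun η => ‖H η‖ ^ 2 with hb
  have hb0 : 0 ≤ b := P111.avg_nonneg fun _ => sq_nonneg _
  set P := (∑ i, ‖x i‖ ^ (r / (r - 1))) ^ (1 / (r / (r - 1))) with hP
  have hP0 : 0 ≤ P := Real.rpow_nonneg (Finset.sum_nonneg fun i _ => by positivity) _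
  choose g hg1 hg2 using fun η : Fin n → ℤˣ => exists_norming (H η)
  have h6 : nrm g ≤ √b := by
    apply Real.sqrt_le_sqrt
    exact P111.avg_mono fun ε => by gcongr; exact hg1 ε
  have h1 : b = ∑ i, ((wc {i} g).comp V) (x i) := by
    have h2 : ∀ η : Fin n → ℤˣ, ‖H η‖ ^ 2 = ∑ i, sg (η i) * g η (V (x i)) := by
      intro η
      rw [← hg2 η]
      simp only [hH, map_sum, map_smul, smul_eq_mul]
    rw [hb, avg_congr h2, avg_sum]
    refine Finset.sum_congr rfl fun i _ => ?_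
    rw [ContinuousLinearMap.comp_apply, wc_apply]
    simp only [walsh_singleton]
  have h3 : (∑ i, ‖(wc {i} g).comp V‖ ^ r) ^ (1 / r) ≤ C * (B * nrm g) := by
    refine (hX n fun i => (wc {i} g).comp V).trans (mul_le_mul_of_nonneg_left ?_ hC)
    rw [nrm_eq]
    refine le_trans (le_of_eq ?_) (dual_nrm hB (h n) g)
    rw [mm_tau]
    simp only [wc_comp2]
  change √b ≤ _
  apply sqrt_le_of_forall hb0 (by positivity)
  intro δ hδ0 _
  calc (1 - δ) * b ≤ b := by nlinarith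
    _ ≤ ∑ i, ‖x i‖ * ‖(wc {i} g).comp V‖ := by
        rw [h1]
        refine Finset.sum_le_sum fun i _ => (le_abs_self _).trans ?_
        rw [mul_comm]
        exact ((wc {i} g).comp V).le_opNorm _
    _ ≤ P * (∑ i, ‖(wc {i} g).comp V‖ ^ r) ^ (1 / r) :=
        holder_gen (by linarith) _ _ (fun i => norm_nonneg _) fun i => norm_nonneg _
    _ ≤ P * (C * (B * √b)) := by
        refine mul_le_mul_of_nonneg_left (h3.trans ?_) hP0
        gcongr
    _ = B * C * P * √b := by ring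

theorem dualType_of_kconvex {K q C : ℝ} (hq : 2 ≤ q) (hC : 0 ≤ C) (hK : 0 ≤ K)
    (h : KConvexWith K X) (hX : P111.CotypeWith q C X) :
    TypeWith (q / (q - 1)) (K * C) (X →L[ℝ] ℝ) := by
  intro n ξ
  rw [nrm_eq]
  set P := (∑ i, ‖ξ i‖ ^ (q / (q - 1))) ^ (1 / (q / (q - 1))) with hP
  have hP0 : 0 ≤ P := Real.rpow_nonneg (Finset.sum_nonneg fun i _ => by positivity) _
  refine nrm_le_of_pairing _ (by positivity) fun f => ?_
  rw [← sum_apply_wc]
  have h3 : (∑ i, ‖wc {i} f‖ ^ q) ^ (1 / q) ≤ C * (K * nrm f) := by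
    refine (hX n fun i => wc {i} f).trans (mul_le_mul_of_nonneg_left ?_ hC)
    have h4 := h n f
    simp only [rad_eq_wc] at h4
    rwa [nrm_eq f] at h4
  calc |∑ i, ξ i (wc {i} f)| ≤ ∑ i, ‖ξ i‖ * ‖wc {i} f‖ :=
        (Finset.abs_sum_le_sum_abs _ _).trans (Finset.sum_le_sum fun i _ => (ξ i).le_opNorm _)
    _ ≤ P * (∑ i, ‖wc {i} f‖ ^ q) ^ (1 / q) :=
        holder_gen (by linarith) _ _ (fun i => norm_nonneg _) fun i => norm_nonneg _
    _ ≤ P * (C * (K * nrm f)) := mul_le_mul_of_nonneg_left h3 hP0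
    _ = _ := by ring

theorem norm_sign_sum (s : ℕ) (ε : Fin s → ℤˣ) :
    ‖∑ i, sg (ε i) • (PiLp.single 1 i (1:ℝ) : L1s s)‖ = s := by
  rw [PiLp.norm_eq_of_L1]
  have h1 : ∀ j, (∑ i, sg (ε i) • (PiLp.single 1 i (1:ℝ) : L1s s)) j = sg (ε j) := by
    intro j
    have h2 : (∑ i, sg (ε i) • (PiLp.single 1 i (1:ℝ) : L1s s)) j =
        ∑ i, (sg (ε i) • (PiLp.single 1 i (1:ℝ) : L1s s)) j := by
      rw [WithLp.ofLp_sum, Finset.sum_apply]
    rw [h2, Finset.sum_eq_single j]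
    · simp
    · intro i _ hi
      simp [Ne.symm hi]
    · intro h
      exact absurd (Finset.mem_univ j) h
  simp only [h1, Real.norm_eq_abs, P111.abs_sg]
  simp

/-- The distance to `ℓ₁^s` in a space of type `r'`. -/
theorem dist_l1 {r T₀ : ℝ} (hr : 1 < r) (hT₀ : 0 ≤ T₀) (h : TypeWith (r / (r - 1)) T₀ X) (s : ℕ)
    (E : Submodule ℝ X) (T : E ≃L[ℝ] L1s s) :
    (s : ℝ) ^ (1 / r) ≤ T₀ * (‖(T : E →L[ℝ] L1s s)‖ * ‖(T.symm : L1s s →L[ℝ] E)‖) := by
  set a := ‖(T : E →L[ℝ] L1s s)‖ with ha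
  set b := ‖(T.symm : L1s s →L[ℝ] E)‖ with hb
  have ha0 : 0 ≤ a := ContinuousLinearMap.opNorm_nonneg _
  have hb0 : 0 ≤ b := ContinuousLinearMap.opNorm_nonneg _
  have hr0 : 0 < r := by linarith
  have hr1 : 0 < r - 1 := by linarith
  rcases Nat.eq_zero_or_pos s with rfl | hs
  · rw [Nat.cast_zero, Real.zero_rpow (by positivity)]
    positivity
  have hs0 : (0:ℝ) < s := by exact_mod_cast hs
  set e : Fin s → L1s s := fun i => PiLp.single 1 i (1:ℝ) with he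
  set x : Fin s → X := fun i => (T.symm (e i) : E) with hx
  have hxn : ∀ i, ‖x i‖ ≤ b := by
    intro i
    have h1 := (T.symm : L1s s →L[ℝ] E).le_opNorm (e i)
    have h2 : ‖e i‖ = 1 := by simp [he]
    rw [h2, mul_one] at h1
    exact h1
  have hlow : ∀ ε : Fin s → ℤˣ, (s : ℝ) ≤ a * ‖∑ i, sg (ε i) • x i‖ := by
    intro ε
    have h1 := (T : E →L[ℝ] L1s s).le_opNorm (∑ i, sg (ε i) • T.symm (e i))
    have h2 : (T : E →L[ℝ] L1s s) (∑ i, sg (ε i) • T.symm (e i)) = ∑ i, sg (ε i) • e i := by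
      simp
    have h3 : ‖∑ i, sg (ε i) • T.symm (e i)‖ = ‖∑ i, sg (ε i) • x i‖ := by
      rw [← Submodule.norm_coe]
      simp [hx]
    rw [h2, h3, norm_sign_sum] at h1
    exact h1
  have h4 := h s x
  rw [nrm_eq] at h4
  have h5 : (s : ℝ) ≤ a * nrm fun ε : Fin s → ℤˣ => ∑ i, sg (ε i) • x i := by
    have h6 := nrm_comp_le ha0 (fun ε : Fin s → ℤˣ => ∑ i, sg (ε i) • x i)
      (fun _ => (s:ℝ)) (fun ε => by rw [Real.norm_of_nonneg hs0.le]; exact hlow ε)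
    refine le_trans (le_of_eq ?_) h6
    rw [nrm, avg_const, Real.sqrt_sq (norm_nonneg _), Real.norm_of_nonneg hs0.le]
  have h7 : (∑ i, ‖x i‖ ^ (r / (r - 1))) ^ (1 / (r / (r - 1))) ≤ (s:ℝ) ^ (1 - 1 / r) * b := by
    have hp : 0 < r / (r - 1) := by positivity
    calc (∑ i, ‖x i‖ ^ (r / (r - 1))) ^ (1 / (r / (r - 1)))
        ≤ ((s:ℝ) * b ^ (r / (r - 1))) ^ (1 / (r / (r - 1))) := by
          refine Real.rpow_le_rpow (Finset.sum_nonneg fun i _ => by positivity) ?_ (by positivity)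
          calc ∑ i, ‖x i‖ ^ (r / (r - 1)) ≤ ∑ _i : Fin s, b ^ (r / (r - 1)) :=
                Finset.sum_le_sum fun i _ => Real.rpow_le_rpow (norm_nonneg _) (hxn i) hp.le
            _ = _ := by simp
      _ = _ := by
          rw [Real.mul_rpow hs0.le (by positivity), ← Real.rpow_mul hb0,
            mul_one_div_cancel hp.ne', Real.rpow_one]
          congr 2
          field_simp
  have h8 : (s:ℝ) ^ (1 - 1 / r) * (s:ℝ) ^ (1 / r) ≤ (s:ℝ) ^ (1 - 1 / r) * (T₀ * (a * b)) := by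
    rw [← Real.rpow_add hs0, sub_add_cancel, Real.rpow_one]
    calc (s:ℝ) ≤ a * (T₀ * ((s:ℝ) ^ (1 - 1 / r) * b)) := by
          refine h5.trans (mul_le_mul_of_nonneg_left (h4.trans ?_) ha0)
          exact mul_le_mul_of_nonneg_left h7 hT₀
      _ = _ := by ring
  exact le_of_mul_le_mul_left h8 (by positivity)

theorem not_containsL1 {r K : ℝ} (hr : 0 < r) (hK : 0 ≤ K)
    (h : ∀ (s : ℕ) (E : Submodule ℝ X) (T : E ≃L[ℝ] L1s s),
      (s : ℝ) ^ (1 / r) ≤ K * (‖(T : E →L[ℝ] L1s s)‖ * ‖(T.symm : L1s s →L[ℝ] E)‖)) :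
    ¬ ContainsL1 X := by
  rintro ⟨D, hD⟩
  obtain ⟨s, hs⟩ := exists_nat_gt ((K * |D|) ^ r)
  obtain ⟨E, T, hT⟩ := hD s
  have h1 : (s : ℝ) ^ (1 / r) ≤ K * |D| :=
    (h s E T).trans (mul_le_mul_of_nonneg_left (hT.trans (le_abs_self D)) hK)
  have h2 := Real.rpow_le_rpow (by positivity) h1 hr.le
  rw [← Real.rpow_mul (Nat.cast_nonneg s), one_div_mul_cancel hr.ne', Real.rpow_one] at h2
  linarith

theorem TypeWith.mono' {p T T' : ℝ} (h : TypeWith p T X) (hT : T ≤ T') : TypeWith p T' X :=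
  fun n y => (h n y).trans (mul_le_mul_of_nonneg_right hT
    (Real.rpow_nonneg (Finset.sum_nonneg fun i _ => by positivity) _))

theorem HasBAP.hasAP (h : HasBAP X) : HasAP X := by
  obtain ⟨lam, h⟩ := h
  intro M hM δ hδ
  obtain ⟨S, h1, -, h2⟩ := h M hM δ hδ
  exact ⟨S, h1, h2⟩

end

/-- The uniform theorem for operators. -/
theorem op_uniform {q r : ℝ} (hq2 : 2 ≤ q) (hr2 : 2 ≤ r) (C : ℝ) :
    ∃ K : ℝ, 0 ≤ K ∧ ∀ (X : Type u) (Y : Type v) [NormedAddCommGroup X] [NormedSpace ℝ X]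
      [NormedAddCommGroup Y] [NormedSpace ℝ Y] (V : X →L[ℝ] Y), Approximable V →
      P111.CotypeWith q C Y → P111.CotypeWith r C (X →L[ℝ] ℝ) →
      OpKConvexWith (K * ‖V‖) V ∧ OpTypeWith (r / (r - 1)) (K * ‖V‖) V := by
  set C₁ : ℝ := max C 1 with hC₁
  have hC : 1 ≤ C₁ := le_max_right _ _
  obtain ⟨ρ, hρ1, hρ⟩ := approx_main.{u, v} hq2 hr2 hC
  refine ⟨3 * ρ * C₁, by positivity, ?_⟩
  intro X Y _ _ _ _ V hV hq hr
  have hq' := EZ.CotypeWith.mono' hq (le_max_left C 1)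
  have hr' := EZ.CotypeWith.mono' hr (le_max_left C 1)
  have h1 := hρ X Y V hq' hr' hV
  have h0 : 0 ≤ 3 * ‖V‖ * ρ := by positivity
  constructor
  · refine opK_of_bd (by positivity) fun n => (h1.bd_tau n).mono ?_
    calc 3 * ‖V‖ * ρ ≤ 3 * ‖V‖ * ρ * C₁ := le_mul_of_one_le_right h0 hC
      _ = _ := by ring
  · have h2 := opType_of_bd hr2 (by linarith) h0 h1.bd_tau hr'
    have h3 : 3 * ‖V‖ * ρ * C₁ = 3 * ρ * C₁ * ‖V‖ := by ring
    rwa [h3] at h2

/-- The uniform theorem for spaces with the approximation property. -/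
theorem space_uniform {q r : ℝ} (hq2 : 2 ≤ q) (hr2 : 2 ≤ r) (C : ℝ) :
    ∃ K : ℝ, 0 ≤ K ∧ ∀ (X : Type u) [NormedAddCommGroup X] [NormedSpace ℝ X], HasAP X →
      P111.CotypeWith q C X → P111.CotypeWith r C (X →L[ℝ] ℝ) →
      KConvexWith K X ∧ TypeWith (r / (r - 1)) K X ∧ TypeWith (q / (q - 1)) K (X →L[ℝ] ℝ) ∧
      ∀ (s : ℕ) (E : Submodule ℝ X) (T : E ≃L[ℝ] L1s s),
        (s : ℝ) ^ (1 / r) ≤ K * (‖(T : E →L[ℝ] L1s s)‖ * ‖(T.symm : L1s s →L[ℝ] E)‖) := by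
  obtain ⟨K, hK0, hK⟩ := op_uniform.{u, u} hq2 hr2 C
  set C₁ : ℝ := max C 1 with hC₁
  have hC : 1 ≤ C₁ := le_max_right _ _
  have hKK : K ≤ K * C₁ := le_mul_of_one_le_right hK0 hC
  refine ⟨K * C₁, by positivity, ?_⟩
  intro X _ _ hAP hq hr
  obtain ⟨h1, h2⟩ := hK X X (ContinuousLinearMap.id ℝ X) hAP hq hr
  have hid : K * ‖ContinuousLinearMap.id ℝ X‖ ≤ K :=
    mul_le_of_le_one_right hK0 ContinuousLinearMap.norm_id_le
  have h3 : KConvexWith K X := fun n f => (h1 n f).trans (mul_le_mul_of_nonneg_right hid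
    (Real.rpow_nonneg (P111.avg_nonneg fun _ => sq_nonneg _) _))
  have h4 : TypeWith (r / (r - 1)) (K * C₁) X :=
    TypeWith.mono' (T := K * ‖ContinuousLinearMap.id ℝ X‖) h2 (hid.trans hKK)
  refine ⟨fun n f => (h3 n f).trans (mul_le_mul_of_nonneg_right hKK
    (Real.rpow_nonneg (P111.avg_nonneg fun _ => sq_nonneg _) _)), h4, ?_, ?_⟩
  · exact dualType_of_kconvex hq2 (by linarith) hK0 h3 (EZ.CotypeWith.mono' hq (le_max_left C 1))
  · exact dist_l1 (by linarith) (by positivity) h4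

/-- The qualitative theorem. -/
theorem ap_main {q r : ℝ} (X : Type u) [NormedAddCommGroup X] [NormedSpace ℝ X] (hAP : HasAP X)
    (hq : HasCotype q X) (hr : HasCotype r (X →L[ℝ] ℝ)) :
    IsKConvex X ∧ HasType (r / (r - 1)) X ∧ ¬ ContainsL1 X := by
  obtain ⟨hq2, C₁, hC₁⟩ := hq
  obtain ⟨hr2, C₂, hC₂⟩ := hr
  obtain ⟨K, hK0, hK⟩ := space_uniform.{u} hq2 hr2 (max C₁ C₂)
  obtain ⟨h1, h2, -, h4⟩ := hK X hAP (EZ.CotypeWith.mono' hC₁ (le_max_left _ _))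
    (EZ.CotypeWith.mono' hC₂ (le_max_right _ _))
  have hr1 : 0 < r - 1 := by linarith
  refine ⟨⟨K, h1⟩, ⟨?_, ?_, K, h2⟩, not_containsL1 (by linarith) hK0 h4⟩
  · rw [lt_div_iff₀ hr1]
    linarith
  · rw [div_le_iff₀ hr1]
    linarith

end Vale.Agent.N111
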