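import Vale.Agent.N111.Sys

/-!
The self-improving bound for products of Rademacher projections tensored with an operator.
-/

set_option linter.unusedSectionVars false

namespace Vale.Agent.N111

open Finset Vale.Agent.P111 Vale.Agent.P111.EZ

universe u v

section

variable {X Y : Type*} [NormedAddCommGroup X] [NormedSpace ℝ X] [NormedAddCommGroup Y]
  [NormedSpace ℝ Y] {V : X →L[ℝ] Y} {I : Type} [Fintype I] [DecidableEq I]

/-- The operator `M_v ⊗ V` satisfies `MP _ 1 ρ`. -/
def Good (V : X →L[ℝ] Y) (ρ : ℝ) {I : Type} [Fintype I] [DecidableEq I] (v : Finset I → ℝ) :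
    Prop :=
  ∀ (Λ : Type) [Fintype Λ] [DecidableEq Λ] (L : Type) [DecidableEq L] (s : Finset L) (c : Λ → L),
    Bd V (fun S : Finset (Λ ⊕ I) => pm s c S.toLeft * v S.toRight) (ρ ^ #s)

theorem Good.mp {ρ : ℝ} {v : Finset I → ℝ} (h : Good V ρ v) (hρ : 0 ≤ ρ) (N : ℕ) :
    MP (T2 V v N) 1 ρ := by
  intro Λ _ _ L _ s c
  rw [one_mul]
  exact T2_bd (by positivity) (h Λ L s c) N

theorem Good.transfer {ρ : ℝ} {I' : Type} [Fintype I'] [DecidableEq I'] {v : Finset I' → ℝ}
    (h : Good V ρ v) (hρ : 0 ≤ ρ) (φ : I → Option I') : Good V ρ fun S => v (oddset φ S) := by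
  intro Λ _ _ L _ s c
  set ψ : Λ ⊕ I → Option (Λ ⊕ I') :=
    Sum.elim (fun l => some (Sum.inl l)) (fun x => (φ x).map Sum.inr) with hψ
  refine ((h Λ L s c).transfer (by positivity) ψ).congr fun S => ?_
  have h1 : (oddset ψ S).toLeft = S.toLeft := by
    ext l
    simp only [oddset, Finset.mem_toLeft, Finset.mem_filter, Finset.mem_univ, true_and]
    have h2 : (S.filter fun i => ψ i = some (Sum.inl l)) = S.filter fun i => i = Sum.inl l := by
      apply Finset.filter_congr
      rintro (i | i) _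
      · simp [hψ]
      · simp [hψ]
    rw [h2, Finset.filter_eq']
    split_ifs with h3 <;> simp [h3]
  have h2 : (oddset ψ S).toRight = oddset φ S.toRight := by
    ext j
    simp only [oddset, Finset.mem_toRight, Finset.mem_filter, Finset.mem_univ, true_and]
    have h3 : (S.filter fun i => ψ i = some (Sum.inr j)) =
        (S.toRight.filter fun i => φ i = some j).map ⟨Sum.inr, Sum.inr_injective⟩ := by
      ext i
      rcases i with i | i
      · simp [hψ]
      · simp [hψ]
    rw [h3, Finset.card_map]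
  rw [h1, h2]

theorem Good.loc {ρ : ℝ} {v : Finset I → ℝ} (h : Good V ρ v) (hρ : 0 ≤ ρ) {J : Finset I}
    (hv : ∀ S, v (S \ J) = v S) {L : Type} [DecidableEq L] (s : Finset L) (c : I → L) :
    Bd V (fun S => pm s c (S ∩ J) * v S) (ρ ^ #s) := by
  set ψ : I → Option (I ⊕ I) := fun x => some (if x ∈ J then Sum.inl x else Sum.inr x) with hψ
  refine ((h I L s c).transfer (by positivity) ψ).congr fun S => ?_
  have h1 : (oddset ψ S).toLeft = S ∩ J := by
    ext l
    simp only [oddset, Finset.mem_toLeft, Finset.mem_filter, Finset.mem_univ, true_and]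
    have h2 : (S.filter fun i => ψ i = some (Sum.inl l)) = (S ∩ J).filter fun i => i = l := by
      ext y
      simp only [hψ, Finset.mem_filter, Finset.mem_inter, Option.some.injEq]
      by_cases hy : y ∈ J <;> simp [hy]
    rw [h2, Finset.filter_eq']
    split_ifs with h3 <;> simp [h3]
  have h2 : (oddset ψ S).toRight = S \ J := by
    ext l
    simp only [oddset, Finset.mem_toRight, Finset.mem_filter, Finset.mem_univ, true_and]
    have h2 : (S.filter fun i => ψ i = some (Sum.inr l)) = (S \ J).filter fun i => i = l := by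
      ext y
      simp only [hψ, Finset.mem_filter, Finset.mem_sdiff, Option.some.injEq]
      by_cases hy : y ∈ J <;> simp [hy]
    rw [h2, Finset.filter_eq']
    split_ifs with h3 <;> simp [h3]
  rw [h1, h2, hv]

theorem Good.bd {ρ : ℝ} {v : Finset I → ℝ} (h : Good V ρ v) (hρ : 0 ≤ ρ) : Bd V v 1 := by
  have h1 := h.loc hρ (J := ∅) (fun S => by rw [Finset.sdiff_empty]) (∅ : Finset Unit)
    fun _ => ()
  rw [Finset.card_empty, pow_zero] at h1
  exact h1.congr fun S => by simp [pm]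

theorem Good.tau {ρ : ℝ} {v : Finset I → ℝ} (h : Good V ρ v) (hρ : 0 ≤ ρ) {J : Finset I}
    (hv : ∀ S, v (S \ J) = v S) : Bd V (fun S => P111.tau #(S ∩ J) * v S) ρ := by
  have h1 := h.loc hρ hv ({()} : Finset Unit) fun _ => ()
  rw [Finset.card_singleton, pow_one] at h1
  exact h1.congr fun S => by simp [pm]

theorem Good.level {ρ : ℝ} {v : Finset I → ℝ} (h : Good V ρ v) (hρ : 0 ≤ ρ) {k : ℕ} (hk : k ≠ 0)
    {J : Finset I} (hv : ∀ S, v (S \ J) = v S) :
    Bd V (fun S => (if #(S ∩ J) = k then 1 else 0) * v S) ((Real.exp 1 * ρ) ^ k) := by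
  rw [mul_pow]
  apply bd_card_eq_of_prod hk J v _ (by positivity)
  intro c
  have h1 := h.loc hρ hv (Finset.univ : Finset (Fin k)) c
  rw [Finset.card_univ, Fintype.card_fin] at h1
  exact h1

/-- The bound for blocks of size `n`. -/
def PN2 (V : X →L[ℝ] Y) (ρ : ℝ) (n : ℕ) (K : ℝ) : Prop :=
  ∀ (I : Type) [Fintype I] [DecidableEq I] (J : Finset I) (v : Finset I → ℝ), #J = n →
    Good V ρ v → (∀ S, v (S \ J) = v S) → Bd V (fun S => tau #(S ∩ J) * v S) K

theorem Good.bd_rem2 {κ : ℝ} {v : Finset I → ℝ} (h : Good V κ v) (hκ : 1 ≤ κ) {u : ℝ}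
    (hu : |u| ≤ 1) {J : Finset I} (hv : ∀ S, v (S \ J) = v S) :
    Bd V (fun S => rem2 u #(S ∩ J) * v S) (12 * Real.exp 1 ^ 2 * κ ^ 2 * u ^ 2) := by
  have he : 1 ≤ Real.exp 1 := Real.one_le_exp (by norm_num)
  have he2 : 2 ≤ Real.exp 1 := by
    have := Real.add_one_le_exp (1:ℝ)
    linarith
  have hκ0 : 0 ≤ κ := by linarith
  by_cases hs : |u| * (Real.exp 1 * κ) ≤ 1 / 2
  · have h1 : Bd V (fun S => ∑ j ∈ Finset.Ico 2 (Fintype.card I + 1),
        u ^ j * ((if #(S ∩ J) = j then 1 else 0) * v S))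
        (∑ j ∈ Finset.Ico 2 (Fintype.card I + 1), |u ^ j| * (Real.exp 1 * κ) ^ j) := by
      apply Bd.sum
      intro j hj
      rw [Finset.mem_Ico] at hj
      exact (h.level hκ0 (by omega) hv).smul (u ^ j)
    refine (h1.congr ?_).mono ?_
    · intro S
      rw [rem2_eq_sum u (N := Fintype.card I) (Finset.card_le_univ _), Finset.sum_mul]
      apply Finset.sum_congr rfl
      intro j _
      ring
    · have h2 : ∀ j, |u ^ j| * (Real.exp 1 * κ) ^ j = (|u| * (Real.exp 1 * κ)) ^ j := by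
        intro j; rw [abs_pow, ← mul_pow]
      simp only [h2]
      set q := |u| * (Real.exp 1 * κ) with hq
      have hq0 : 0 ≤ q := by positivity
      have h3 := geom_sum_Ico_le_of_lt_one (m := 2) (n := Fintype.card I + 1) hq0 (by linarith)
      refine h3.trans ?_
      have h4 : q ^ 2 / (1 - q) ≤ 2 * q ^ 2 := by
        rw [div_le_iff₀ (by linarith)]
        nlinarith [sq_nonneg q]
      refine h4.trans ?_
      have h5 : q ^ 2 = Real.exp 1 ^ 2 * κ ^ 2 * u ^ 2 := by
        rw [hq, mul_pow, mul_pow, sq_abs]; ring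
      rw [h5]
      have h6 : 0 ≤ Real.exp 1 ^ 2 * κ ^ 2 * u ^ 2 := by positivity
      nlinarith
  · push Not at hs
    have ha : Bd V (fun S => u ^ #(S ∩ J) * v S) 1 := (h.bd hκ0).mul_pow J u hu
    have hb : Bd V (fun S => (0:ℝ) ^ #(S ∩ J) * v S) 1 := (h.bd hκ0).mul_pow J 0 (by simp)
    have hc := h.tau hκ0 hv
    have h1 := (ha.add (hb.smul (-1))).add (hc.smul (-u))
    refine (h1.congr ?_).mono ?_
    · intro S
      unfold rem2
      have : (if #(S ∩ J) = 0 then (1:ℝ) else 0) = 0 ^ #(S ∩ J) := by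
        split_ifs with h0
        · rw [h0, pow_zero]
        · rw [zero_pow h0]
      rw [this]
      ring
    · rw [abs_neg, abs_neg, abs_one]
      set a := |u| with ha'
      have ha0 : 0 ≤ a := abs_nonneg u
      have hu2 : u ^ 2 = a ^ 2 := (sq_abs u).symm
      rw [hu2]
      set e := Real.exp 1 with he'
      have hx : 1 < 2 * (a * (e * κ)) := by linarith
      have hx2 : 1 ≤ (2 * (a * (e * κ))) ^ 2 := one_le_pow₀ hx.le
      have h7 : a * κ ≤ (2 * (a * (e * κ))) * (a * κ) := by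
        have : 0 ≤ a * κ := by positivity
        nlinarith
      have h8 : (2 * (a * (e * κ))) * (a * κ) = 2 * e * (κ ^ 2 * a ^ 2) := by ring
      have h9 : (2 * (a * (e * κ))) ^ 2 = 4 * e ^ 2 * (κ ^ 2 * a ^ 2) := by ring
      have h10 : 0 ≤ κ ^ 2 * a ^ 2 := by positivity
      have h11 : 2 * e ≤ 4 * e ^ 2 := by nlinarith
      have h12 : 2 * e * (κ ^ 2 * a ^ 2) ≤ 4 * e ^ 2 * (κ ^ 2 * a ^ 2) := by gcongr
      have : 12 * e ^ 2 * κ ^ 2 * a ^ 2 = 3 * (4 * e ^ 2 * (κ ^ 2 * a ^ 2)) := by ring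
      rw [this]
      linarith

theorem Good.step {κ K : ℝ} {n : ℕ} (hn : n ≠ 0) {v : Finset I → ℝ} (h : Good V κ v)
    (hκ : 1 ≤ κ) (hK : 0 ≤ K) (hN : PN2 V κ n K) {J : Finset I} (hv : ∀ S, v (S \ J) = v S) :
    Bd V (fun S => P111.tau #(S ∩ J) * v S) (K + 12 * √3 * Real.exp 1 ^ 2 * κ ^ 2 / √n) := by
  have : Nonempty (Fin n) := ⟨⟨0, Nat.pos_of_ne_zero hn⟩⟩
  set φ' : Fin n ⊕ I → Option I := Sum.elim (fun _ => none) some with hφ'
  set J' : Finset (Fin n ⊕ I) := Finset.univ.filter fun i => i.isLeft with hJ'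
  have hJcard : #J' = n := by
    have : J' = Finset.univ.map ⟨Sum.inl, Sum.inl_injective⟩ := by
      ext i
      rcases i with i | i <;> simp [hJ']
    rw [this, Finset.card_map, Finset.card_univ, Fintype.card_fin]
  have haux : ∀ S', v (oddset φ' (S' \ J')) = v (oddset φ' S') := by
    intro S'
    congr 1
    ext x
    rw [hφ', mem_oddset_right, mem_oddset_right]
    simp [hJ']
  have h1 := hN (Fin n ⊕ I) J' _ hJcard (h.transfer (by linarith) φ') haux
  have h2 : Bd V (fun S : Finset I => (n * avg fun θ : Fin n → ℤˣ => ubar θ ^ (#(S ∩ J) + 1)) *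
      v S) K := by
    have h3 : ∀ c : I → Fin n, Bd V (fun S : Finset I => P111.tau #(Finset.univ.filter fun j : Fin n =>
        Odd #((S ∩ J).filter fun x => c x = j)) * v S) K := by
      intro c
      set φc : I → Option (Fin n ⊕ I) := fun x => some (if x ∈ J then Sum.inl (c x) else Sum.inr x)
        with hφc
      refine (h1.transfer hK φc).congr ?_
      intro S
      congr 1
      · congr 1
        symm
        have : oddset φc S ∩ J' = (Finset.univ.filter fun j : Fin n =>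
            Odd #((S ∩ J).filter fun x => c x = j)).map ⟨Sum.inl, Sum.inl_injective⟩ := by
          ext i
          rcases i with j | x
          · simp only [hJ', oddset, Finset.mem_inter, Finset.mem_filter, Finset.mem_univ, true_and,
              Sum.isLeft_inl, and_true, Finset.mem_map, Function.Embedding.coeFn_mk,
              Sum.inl.injEq, exists_eq_right]
            have : (S.filter fun i => φc i = some (Sum.inl j)) =
                (S ∩ J).filter fun x => c x = j := by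
              ext y
              simp only [hφc, Finset.mem_filter, Finset.mem_inter, Option.some.injEq]
              by_cases hy : y ∈ J <;> simp [hy]
            rw [this]
          · simp [hJ']
        rw [this, Finset.card_map]
      · rw [← hv S]
        congr 1
        ext x
        rw [hφ', mem_oddset_right]
        simp only [oddset, Finset.mem_filter, Finset.mem_univ, true_and, Finset.mem_sdiff]
        have : (S.filter fun i => φc i = some (Sum.inr x)) =
            (S \ J).filter fun i => i = x := by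
          ext y
          simp only [hφc, Finset.mem_filter, Finset.mem_sdiff, Option.some.injEq]
          by_cases hy : y ∈ J <;> simp [hy]
        rw [this, Finset.filter_eq']
        split_ifs with h4
        · simpa using h4
        · simpa using h4
    refine (Bd.avg_const h3).congr ?_
    intro S
    rw [avg_mul_right, avg_tau_odd hn]
  have h4 : Bd V (fun S : Finset I => avg fun θ : Fin n → ℤˣ =>
      (- (n * ubar θ)) * (rem2 (ubar θ) #(S ∩ J) * v S))
      (avg fun θ : Fin n → ℤˣ => |- (n * ubar θ)| *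
        (12 * Real.exp 1 ^ 2 * κ ^ 2 * ubar θ ^ 2)) := by
    apply Bd.avg
    intro θ
    exact (h.bd_rem2 hκ (abs_ubar_le θ) hv).smul _
  refine ((h2.add h4).congr ?_).mono ?_
  · intro S
    have e1 : ∀ θ : Fin n → ℤˣ, (- (n * ubar θ)) * (rem2 (ubar θ) #(S ∩ J) * v S) =
        (n * (ubar θ * (if #(S ∩ J) = 0 then 1 else 0) + ubar θ ^ 2 * P111.tau #(S ∩ J)
          - ubar θ ^ (#(S ∩ J) + 1))) * v S := by
      intro θ
      unfold rem2
      ring
    simp only [e1]
    rw [avg_mul_right, avg_mul_left, avg_sub, avg_add, avg_mul_right, avg_mul_right, avg_ubar,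
      avg_ubar_sq hn]
    have hn' : (n : ℝ) ≠ 0 := by exact_mod_cast hn
    field_simp
    ring
  · have e2 : ∀ θ : Fin n → ℤˣ, |- (n * ubar θ)| * (12 * Real.exp 1 ^ 2 * κ ^ 2 * ubar θ ^ 2) =
        (12 * Real.exp 1 ^ 2 * κ ^ 2) * (n * (|ubar θ| * ubar θ ^ 2)) := by
      intro θ
      rw [abs_neg, abs_mul, Nat.abs_cast]
      ring
    simp only [e2]
    rw [avg_mul_left, avg_mul_left]
    have h5 := avg_abs_ubar_cube_le hn
    have h6 : 0 ≤ 12 * Real.exp 1 ^ 2 * κ ^ 2 := by positivity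
    have h7 := mul_le_mul_of_nonneg_left h5 h6
    have h8 : 12 * Real.exp 1 ^ 2 * κ ^ 2 * (√3 / √n) =
        12 * √3 * Real.exp 1 ^ 2 * κ ^ 2 / √n := by ring
    rw [h8] at h7
    linarith

theorem pn_of_count2 {κ K : ℝ} (hκ : 0 ≤ κ)
    (hK : ∀ (Γ : Type) [Fintype Γ] [DecidableEq Γ],
      Count K (PiLp 2 fun _ : Γ => X) (PiLp 2 fun _ : Γ => Y))
    {n : ℕ} (hn : max K 1 ≤ √(n : ℝ)) : PN2 V κ n (√(n : ℝ) / 1000) := by
  intro I _ _ J v hJ hG hv f g
  by_contra hcon
  push Not at hcon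
  have hn1 : 1 ≤ √(n : ℝ) := (le_max_right _ _).trans hn
  have hn0 : 0 < √(n : ℝ) := by linarith
  -- the norms do not vanish
  have hnf : 0 < nrm f := by
    rcases (nrm_nonneg f).eq_or_lt with h0 | h0
    · exfalso
      have := hG.tau hκ hv f g
      rw [← h0, zero_mul, mul_zero] at this hcon
      linarith
    · exact h0
  have hng : 0 < nrm g := by
    rcases (nrm_nonneg g).eq_or_lt with h0 | h0
    · exfalso
      have := hG.tau hκ hv f g
      rw [← h0, mul_zero, mul_zero] at this hcon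
      linarith
    · exact h0
  -- normalisation
  set f' : (I → ℤˣ) → X := fun ω => (nrm f)⁻¹ • f ω with hf'
  set g' : (I → ℤˣ) → (Y →L[ℝ] ℝ) := fun ω => (nrm g)⁻¹ • g ω with hg'
  have hf1 : (avg fun ω => ‖f' ω‖ ^ 2) = 1 := by
    have h1 : ∀ ω, ‖f' ω‖ ^ 2 = (nrm f)⁻¹ ^ 2 * ‖f ω‖ ^ 2 := by
      intro ω
      simp only [hf', norm_smul, mul_pow, norm_inv, Real.norm_eq_abs, inv_pow, sq_abs]
    simp only [h1]
    rw [avg_mul_left, ← nrm_sq, ← mul_pow, inv_mul_cancel₀ hnf.ne', one_pow]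
  have hg1 : (avg fun ω => ‖g' ω‖ ^ 2) = 1 := by
    have h1 : ∀ ω, ‖g' ω‖ ^ 2 = (nrm g)⁻¹ ^ 2 * ‖g ω‖ ^ 2 := by
      intro ω
      simp only [hg', norm_smul, mul_pow, norm_inv, Real.norm_eq_abs, inv_pow, sq_abs]
    simp only [h1]
    rw [avg_mul_left, ← nrm_sq, ← mul_pow, inv_mul_cancel₀ hng.ne', one_pow]
  have hwf : ∀ S, wc S f' = (nrm f)⁻¹ • wc S f := by
    intro S
    simp only [wc, hf']
    rw [← avg_smul]
    exact avg_congr fun ω => smul_comm _ _ _
  have hwg : ∀ S, wc S g' = (nrm g)⁻¹ • wc S g := by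
    intro S
    simp only [wc, hg']
    rw [← avg_smul]
    exact avg_congr fun ω => smul_comm _ _ _
  set φ : Finset I → ℝ := fun S => v S * (wc S g') (V (wc S f')) with hφ
  have hφ1 : ∀ x : I → ℤˣ, |∑ S, φ S * walsh (S ∩ J) x| ≤ 1 := by
    intro x
    refine phi_le2 (hG.bd hκ) J ?_ ?_ x
    · rw [nrm, hf1, Real.sqrt_one]
    · rw [nrm, hg1, Real.sqrt_one]
  have hlarge : 1 / 1000 * √(#J : ℝ) ≤ |∑ S, tau #(S ∩ J) * φ S| := by
    have h2 : ∑ S, tau #(S ∩ J) * φ S =
        (nrm f)⁻¹ * (nrm g)⁻¹ * ∑ S, tau #(S ∩ J) * v S * (wc S g) (V (wc S f)) := by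
      rw [Finset.mul_sum]
      refine Finset.sum_congr rfl fun S _ => ?_
      simp only [hφ]
      rw [hwf, hwg, map_smul]
      simp only [_root_.smul_apply, map_smul, smul_eq_mul]
      ring
    rw [h2, abs_mul, abs_of_pos (by positivity), hJ]
    have h3 : 1 / 1000 * √(n : ℝ) = (nrm f)⁻¹ * (nrm g)⁻¹ *
        (√(n : ℝ) / 1000 * (nrm f * nrm g)) := by
      field_simp
    rw [h3]
    exact mul_le_mul_of_nonneg_left hcon.le (by positivity)
  -- the parameters
  set b : ℝ := 1 / 2000 with hb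
  set β : ℝ := b / √(n : ℝ) with hβ
  have hβ0 : 0 ≤ β := by rw [hβ, hb]; positivity
  set N : ℕ := ⌊√(n : ℝ) / b⌋₊ with hN
  have hN1 : β * N ≤ 1 := by
    have h4 : (N : ℝ) ≤ √(n : ℝ) / b := Nat.floor_le (by rw [hb]; positivity)
    calc β * N ≤ β * (√(n : ℝ) / b) := mul_le_mul_of_nonneg_left h4 hβ0
      _ = 1 := by
        rw [hβ, hb]
        field_simp
  have hN2 : K < N := by
    have h5 : √(n : ℝ) / b - 1 < N := Nat.sub_one_lt_floor _
    have h6 : K ≤ √(n : ℝ) := (le_max_left _ _).trans hn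
    have h7 : √(n : ℝ) / b = 2000 * √(n : ℝ) := by
      rw [hb]
      ring
    rw [h7] at h5
    linarith
  have hodd := odd_sum_ge J φ hφ1 (β := β) (b := b) (c := 1 / 1000) hβ0
    (by rw [hβ, hJ]; field_simp) (by rw [hb]; norm_num) hlarge
  have hγ : (1 : ℝ) / 10000000 ≤ b * (1 / 1000) - 2 * b ^ 3 := by
    rw [hb]
    norm_num
  have hcount := hK (Om I N) (T2 V v N) ⟨1, κ, zero_le_one, hκ, hG.mp hκ N⟩
    (T2_norm (hG.bd hκ) N) N
    (th J β g') (fun δ => th_norm hβ0 hN1 hg1.le δ)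
  have hall : (univ.filter fun k : Fin N => 1 / 10000000 ≤
      ‖avg fun x => sg (x k) • (th J β g' x).comp (T2 V v N)‖) = univ := by
    apply Finset.filter_true_of_mem
    intro k _
    exact (hγ.trans hodd).trans (coef_ge2 hf1.le k)
  rw [hall, Finset.card_univ, Fintype.card_fin] at hcount
  linarith

theorem Good.improve {κ K : ℝ} {v : Finset I → ℝ} (hP : Good V κ v)
    (hK : ∀ (Γ : Type) [Fintype Γ] [DecidableEq Γ],
      Count K (PiLp 2 fun _ : Γ => X) (PiLp 2 fun _ : Γ => Y))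
    (hκ : max K 1 ≤ κ) {J : Finset I} (hv : ∀ S, v (S \ J) = v S) :
    Bd V (fun S => P111.tau #(S ∩ J) * v S) (9 / 10 * κ) := by
  have hκ1 : 1 ≤ κ := (le_max_right _ _).trans hκ
  set n : ℕ := ⌈(400 * κ) ^ 2⌉₊ with hn
  have hn1 : (400 * κ) ^ 2 ≤ n := Nat.le_ceil _
  have hn2 : (n : ℝ) < (400 * κ) ^ 2 + 1 := Nat.ceil_lt_add_one (by positivity)
  have hs1 : 400 * κ ≤ √(n : ℝ) := Real.le_sqrt_of_sq_le hn1
  have hs2 : √(n : ℝ) ≤ 401 * κ := by
    rw [Real.sqrt_le_left (by positivity)]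
    nlinarith
  have hs0 : 0 < √(n : ℝ) := by linarith
  have hn0 : n ≠ 0 := by
    rintro h
    rw [h] at hs0
    simp at hs0
  have h1 := Good.step hn0 hP hκ1 (by positivity : (0:ℝ) ≤ √(n : ℝ) / 1000)
    (pn_of_count2 (by linarith) hK (n := n) (by linarith)) hv
  have he : Real.exp 1 ^ 2 ≤ 7.3891 := by
    have := Real.exp_one_lt_d9
    have h0 := Real.exp_pos 1
    nlinarith
  have h3 : √(3:ℝ) ≤ 1.7321 := by
    rw [Real.sqrt_le_left (by norm_num)]
    norm_num
  have h4 : 12 * √3 * Real.exp 1 ^ 2 * κ ^ 2 / √(n : ℝ) ≤ 0.4 * κ := by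
    rw [div_le_iff₀ hs0]
    have h5 : 12 * √3 * Real.exp 1 ^ 2 ≤ 12 * 1.7321 * 7.3891 := by
      have := Real.sqrt_nonneg (3:ℝ)
      have h0 : 0 ≤ Real.exp 1 ^ 2 := by positivity
      gcongr
    calc 12 * √3 * Real.exp 1 ^ 2 * κ ^ 2 ≤ 12 * 1.7321 * 7.3891 * κ ^ 2 := by gcongr
      _ ≤ 0.4 * κ * (400 * κ) := by nlinarith [sq_nonneg κ]
      _ ≤ 0.4 * κ * √(n : ℝ) := by gcongr
  refine h1.mono ?_
  linarith

theorem pm_sum {Λ L L' : Type} [Fintype Λ] [DecidableEq Λ] [DecidableEq L] [DecidableEq L']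
    (s : Finset L) (s' : Finset L') (c : Λ → L) (c' : I → L') (S : Finset (Λ ⊕ I)) :
    pm (s.disjSum s') (Sum.map c c') S = pm s c S.toLeft * pm s' c' S.toRight := by
  rw [pm, Finset.prod_disjSum, pm, pm]
  congr 1
  · refine Finset.prod_congr rfl fun l _ => ?_
    have h3 : (S.filter fun i => Sum.map c c' i = Sum.inl l) =
        (S.toLeft.filter fun i => c i = l).map ⟨Sum.inl, Sum.inl_injective⟩ := by
      ext i
      rcases i with i | i <;> simp
    rw [h3, Finset.card_map]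
  · refine Finset.prod_congr rfl fun l _ => ?_
    have h3 : (S.filter fun i => Sum.map c c' i = Sum.inr l) =
        (S.toRight.filter fun i => c' i = l).map ⟨Sum.inr, Sum.inr_injective⟩ := by
      ext i
      rcases i with i | i <;> simp
    rw [h3, Finset.card_map]

theorem MP.good {A ρ : ℝ} (h : MP V A ρ) (hA : 0 < A) (hρ : 0 < ρ) {L : Type} [DecidableEq L]
    (s : Finset L) (c : I → L) : Good V ρ fun S => (A * ρ ^ #s)⁻¹ * pm s c S := by
  intro Λ _ _ L' _ s' c'
  have hpos : 0 < A * ρ ^ #s := by positivity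
  have h1 := (h (Λ ⊕ I) (L' ⊕ L) (s'.disjSum s) (Sum.map c' c)).smul (A * ρ ^ #s)⁻¹
  rw [abs_of_pos (inv_pos.mpr hpos), Finset.card_disjSum] at h1
  refine (h1.congr fun S => ?_).mono (le_of_eq ?_)
  · rw [pm_sum]
    ring
  · rw [pow_add]
    field_simp

theorem MP.improve {A ρ K : ℝ} (h : MP V A ρ) (hA : 0 < A) (hV : ‖V‖ ≤ 1)
    (hK : ∀ (Γ : Type) [Fintype Γ] [DecidableEq Γ],
      Count K (PiLp 2 fun _ : Γ => X) (PiLp 2 fun _ : Γ => Y))
    (hρ : max K 1 ≤ ρ) : MP V (max 1 (9 / 10 * A)) ρ := by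
  have hρ1 : 1 ≤ ρ := (le_max_right _ _).trans hρ
  have hρ0 : 0 < ρ := by linarith
  intro I _ _ L _ s c
  rcases s.eq_empty_or_nonempty with rfl | ⟨l, hl⟩
  · rw [Finset.card_empty, pow_zero, mul_one]
    exact ((bd_one hV).congr fun S => by simp [pm]).mono (le_max_left _ _)
  · set s' := s.erase l with hs'
    set J : Finset I := Finset.univ.filter fun x => c x = l with hJ
    have hpos : 0 < A * ρ ^ #s' := by positivity
    have h1 := ((h.good hA hρ0 s' c).improve hK hρ (J := J) (fun S => by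
      congr 1
      refine Finset.prod_congr rfl fun l' hl' => ?_
      congr 2
      ext x
      have hne : l' ≠ l := Finset.ne_of_mem_erase hl'
      simp only [hJ, Finset.mem_filter, Finset.mem_sdiff, Finset.mem_univ, true_and]
      constructor
      · rintro ⟨⟨e1, _⟩, e2⟩
        exact ⟨e1, e2⟩
      · rintro ⟨e1, e2⟩
        exact ⟨⟨e1, fun e3 => hne (e2.symm.trans e3)⟩, e2⟩)).smul (A * ρ ^ #s')
    rw [abs_of_pos hpos] at h1
    have hcard : #s = #s' + 1 := (Finset.card_erase_add_one hl).symm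
    refine (h1.congr fun S => ?_).mono ?_
    · have h2 : S ∩ J = S.filter fun x => c x = l := by
        ext x
        simp [hJ]
      rw [pm, ← Finset.mul_prod_erase s _ hl, h2, pm]
      field_simp
      rfl
    · rw [hcard, pow_succ]
      calc A * ρ ^ #s' * (9 / 10 * ρ) = 9 / 10 * A * (ρ ^ #s' * ρ) := by ring
        _ ≤ _ := mul_le_mul_of_nonneg_right (le_max_right _ _) (by positivity)

theorem MP.final {A ρ K : ℝ} (h : MP V A ρ) (hV : ‖V‖ ≤ 1)
    (hK : ∀ (Γ : Type) [Fintype Γ] [DecidableEq Γ],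
      Count K (PiLp 2 fun _ : Γ => X) (PiLp 2 fun _ : Γ => Y))
    (hρ : max K 1 ≤ ρ) : MP V 1 ρ := by
  have hρ0 : 0 ≤ ρ := zero_le_one.trans ((le_max_right _ _).trans hρ)
  set R : ℝ := max A 1 with hR
  have hR0 : 0 < R := lt_of_lt_of_le one_pos (le_max_right _ _)
  have hind : ∀ j : ℕ, MP V (max 1 ((9 / 10) ^ j * R)) ρ := by
    intro j
    induction j with
    | zero =>
      refine h.mono (zero_le_one.trans (le_max_left _ _)) hρ0 ?_ le_rfl
      rw [pow_zero, one_mul]
      exact (le_max_left _ _).trans (le_max_right _ _)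
    | succ j ih =>
      have h1 := ih.improve (lt_of_lt_of_le one_pos (le_max_left _ _)) hV hK hρ
      refine h1.mono (zero_le_one.trans (le_max_left _ _)) hρ0 (max_le (le_max_left _ _) ?_)
        le_rfl
      rcases le_total 1 ((9 / 10 : ℝ) ^ j * R) with h2 | h2
      · rw [max_eq_right h2]
        refine le_trans (le_of_eq ?_) (le_max_right _ _)
        ring
      · rw [max_eq_left h2]
        refine le_trans ?_ (le_max_left _ _)
        norm_num
  obtain ⟨j, hj⟩ := exists_pow_lt_of_lt_one (show (0:ℝ) < 1 / R by positivity)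
    (by norm_num : (9 / 10 : ℝ) < 1)
  rw [lt_div_iff₀ hR0] at hj
  have h2 := hind j
  rwa [max_eq_left hj.le] at h2

end

/-- **The operator theorem**: a finite bound improves to a uniform bound. -/
theorem op_main {q r C : ℝ} (hq2 : 2 ≤ q) (hr2 : 2 ≤ r) (hC : 1 ≤ C) :
    ∃ ρ : ℝ, 1 ≤ ρ ∧ ∀ (X : Type u) (Y : Type v) [NormedAddCommGroup X] [NormedSpace ℝ X]
      [NormedAddCommGroup Y] [NormedSpace ℝ Y] (V : X →L[ℝ] Y),
      CotypeWith q C Y → CotypeWith r C (X →L[ℝ] ℝ) → ‖V‖ ≤ 1 → ∀ A : ℝ, MP V A ρ →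
      MP V 1 ρ := by
  obtain ⟨K, hK⟩ := count_rad.{u, v} hq2 hr2 hC
  refine ⟨max K 1, le_max_right _ _, ?_⟩
  intro X Y _ _ _ _ V hq hr hV A hA
  refine hA.final hV (K := K) (fun Γ _ _ => ?_) le_rfl
  exact hK _ _ (HM.cotypeWith_pilp hq2 (by linarith) hq Γ)
    (cotype_dual_pilp hr2 (by linarith) hr Γ)

end Vale.Agent.N111
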