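import Vale.Agent.N111.Step

/-!
Products of Rademacher projections in disjoint blocks, and lower bounds from cotype.
-/

set_option linter.unusedSectionVars false

namespace Vale.Agent.N111

open Finset Vale.Agent.P111 Vale.Agent.P111.TK Vale.Agent.P111.HM

/-- The multiplier of the product of the Rademacher projections in the blocks `c⁻¹(l)`,
`l ∈ s`. -/
noncomputable def pm {I L : Type} [DecidableEq L] (s : Finset L) (c : I → L) (S : Finset I) : ℝ :=
  ∏ l ∈ s, tau #(S.filter fun x => c x = l)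

section

variable {X Y : Type*} [NormedAddCommGroup X] [NormedSpace ℝ X] [NormedAddCommGroup Y]
  [NormedSpace ℝ Y]

/-- Products of `k` Rademacher projections, tensored with `V`, have norm at most `A ρ ^ k`. -/
def MP (V : X →L[ℝ] Y) (A ρ : ℝ) : Prop :=
  ∀ (I : Type) [Fintype I] [DecidableEq I] (L : Type) [DecidableEq L] (s : Finset L) (c : I → L),
    Bd V (pm s c) (A * ρ ^ #s)

theorem abs_pm_le {I L : Type} [DecidableEq L] (s : Finset L) (c : I → L) (S : Finset I) :
    |pm s c S| ≤ 1 := by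
  rw [pm, Finset.abs_prod]
  exact Finset.prod_le_one (fun b _ => abs_nonneg _) (fun b _ => abs_tau_le_one _)

theorem MP.mono {V : X →L[ℝ] Y} {A ρ A' ρ' : ℝ} (h : MP V A ρ) (hA0 : 0 ≤ A') (hρ0 : 0 ≤ ρ)
    (hA : A ≤ A') (hρ : ρ ≤ ρ') : MP V A' ρ' := by
  intro I _ _ L _ s c
  refine (h I L s c).mono ?_
  exact mul_le_mul hA (pow_le_pow_left₀ hρ0 hρ _) (pow_nonneg hρ0 _) hA0

variable {I : Type} [Fintype I] [DecidableEq I]

/-- The multiplier bound for the adjoint. -/
theorem dual_nrm {T : X →L[ℝ] Y} {m : Finset I → ℝ} {B : ℝ} (hB : 0 ≤ B) (h : Bd T m B)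
    (θ : (I → ℤˣ) → (Y →L[ℝ] ℝ)) : nrm (mm m fun x => (θ x).comp T) ≤ B * nrm θ := by
  set H := mm m fun x => (θ x).comp T with hH
  set b := avg fun η => ‖H η‖ ^ 2 with hb
  have hb0 : 0 ≤ b := avg_nonneg fun _ => sq_nonneg _
  change √b ≤ _
  apply sqrt_le_of_forall hb0 (mul_nonneg hB (nrm_nonneg θ))
  intro δ hδ0 hδ1
  choose f hf1 hf2 using fun η : I → ℤˣ => exists_near_norming (H η) hδ0 hδ1
  have h1 := h f θ
  have h2 : ∑ S : Finset I, m S * (wc S θ) (T (wc S f)) = avg fun η => H η (f η) := by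
    have h3 := sum_wc_pairing (V := ContinuousLinearMap.id ℝ X) f H
    simp only [ContinuousLinearMap.id_apply] at h3
    rw [← h3]
    refine Finset.sum_congr rfl fun S _ => ?_
    rw [hH, wc_mm, wc_comp2]
    rfl
  rw [h2] at h1
  have h4 : nrm f ≤ √b := by
    apply Real.sqrt_le_sqrt
    exact avg_mono fun ε => by gcongr; exact hf1 ε
  calc (1 - δ) * b = avg fun η => (1 - δ) * ‖H η‖ ^ 2 := (avg_mul_left _ _).symm
    _ ≤ avg fun η => H η (f η) := avg_mono hf2
    _ ≤ B * (nrm f * nrm θ) := (le_abs_self _).trans h1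
    _ ≤ B * (√b * nrm θ) := by
        have := nrm_nonneg θ
        gcongr
    _ = B * nrm θ * √b := by ring

end

section

variable {Z : Type*} [NormedAddCommGroup Z] [NormedSpace ℝ Z] {I : Type} [Fintype I]
  [DecidableEq I]

theorem abs_walsh (S : Finset I) (ω : I → ℤˣ) : |walsh S ω| = 1 := by
  rw [walsh, Finset.abs_prod]
  exact Finset.prod_eq_one fun i _ => abs_sg _

theorem norm_wc_le_nrm (S : Finset I) (f : (I → ℤˣ) → Z) : ‖wc S f‖ ≤ nrm f := by
  refine Real.le_sqrt_of_sq_le ?_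
  refine (H1.norm_avg_sq_le _).trans (le_of_eq ?_)
  refine avg_congr fun ω => ?_
  rw [norm_smul, Real.norm_eq_abs, abs_walsh, one_mul]

/-- Extension of signs by `1`. -/
def extJ (J : Finset I) (σ : J → ℤˣ) : I → ℤˣ := fun i => if h : i ∈ J then σ ⟨i, h⟩ else 1

theorem tau_walsh_ext (J S : Finset I) (σ : J → ℤˣ) :
    tau #(S ∩ J) * walsh S (extJ J σ) =
      ∑ i : J, sg (σ i) * (if S ∩ J = {(i : I)} then 1 else 0) := by
  by_cases h : #(S ∩ J) = 1
  · obtain ⟨a, ha⟩ := Finset.card_eq_one.mp h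
    have haS : a ∈ S ∩ J := by rw [ha]; exact Finset.mem_singleton_self a
    have ha1 := (Finset.mem_inter.mp haS).1
    have ha2 := (Finset.mem_inter.mp haS).2
    rw [h, tau_one, one_mul, Finset.sum_eq_single ⟨a, ha2⟩]
    · rw [if_pos ha, mul_one, walsh, Finset.prod_eq_single a]
      · simp [extJ, ha2]
      · intro i hi hia
        have hiJ : i ∉ J := by
          intro hiJ
          have : i ∈ S ∩ J := Finset.mem_inter.mpr ⟨hi, hiJ⟩
          rw [ha, Finset.mem_singleton] at this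
          exact hia this
        simp [extJ, hiJ]
      · intro h2
        exact absurd ha1 h2
    · intro i _ hi
      rw [if_neg, mul_zero]
      rw [ha, Finset.singleton_inj]
      intro h2
      exact hi (Subtype.ext h2.symm)
    · intro h2
      exact absurd (Finset.mem_univ _) h2
  · rw [tau_of_ne h, zero_mul]
    symm
    refine Finset.sum_eq_zero fun i _ => ?_
    rw [if_neg, mul_zero]
    intro h2
    rw [h2] at h
    simp at h

theorem mm_ext (J : Finset I) (H : (I → ℤˣ) → Z) (σ : J → ℤˣ) (x : I → ℤˣ) :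
    mm (fun S => tau #(S ∩ J)) H (extJ J σ * x) =
      ∑ i : J, sg (σ i) • mm (fun S => if S ∩ J = {(i : I)} then 1 else 0) H x := by
  simp only [mm, Finset.smul_sum, smul_smul]
  rw [Finset.sum_comm]
  refine Finset.sum_congr rfl fun S _ => ?_
  rw [← Finset.sum_smul, walsh_mul, ← mul_assoc, tau_walsh_ext, Finset.sum_mul]
  congr 1
  exact Finset.sum_congr rfl fun i _ => by ring

/-- Selection of a coordinate, by cotype. -/
theorem select {r C : ℝ} (hr : 2 ≤ r) (hC : 0 ≤ C) (hZ : CotypeWith r C Z) {R : ℕ}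
    (hR : r ≤ R) (J : Finset I) (hJ : J.Nonempty) (H : (I → ℤˣ) → Z) :
    ∃ i ∈ J, (#J : ℝ) * nrm (mm (fun S => if S ∩ J = {i} then 1 else 0) H) ^ R ≤
      (C * nrm (mm (fun S => tau #(S ∩ J)) H)) ^ R := by
  set G := mm (fun S => tau #(S ∩ J)) H with hG
  set Gi : J → (I → ℤˣ) → Z :=
    fun i => mm (fun S => if S ∩ J = {(i : I)} then 1 else 0) H with hGi
  set n : ℝ := (#J : ℝ) with hn
  have hn1 : 1 ≤ n := by
    rw [hn]
    exact_mod_cast hJ.card_pos
  have hn0 : 0 < n := by linarith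
  have h1 : nrm G ^ 2 = avg fun x : I → ℤˣ => avg fun σ : J → ℤˣ =>
      ‖∑ i : J, sg (σ i) • Gi i x‖ ^ 2 := by
    rw [avg_comm, nrm_sq]
    have h2 : ∀ σ : J → ℤˣ, (avg fun x : I → ℤˣ => ‖∑ i : J, sg (σ i) • Gi i x‖ ^ 2) =
        avg fun x => ‖G x‖ ^ 2 := by
      intro σ
      rw [← avg_comp_equiv (Equiv.mulLeft (extJ J σ)) (fun x => ‖G x‖ ^ 2)]
      refine avg_congr fun x => ?_
      rw [Equiv.coe_mulLeft, hG, mm_ext]
    rw [avg_congr h2, avg_const]
  have h3 : ∑ i : J, nrm (Gi i) ^ 2 ≤ (C * n ^ (1 / 2 - 1 / r)) ^ 2 * nrm G ^ 2 := by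
    rw [h1, ← avg_mul_left]
    simp only [nrm_sq]
    rw [← avg_sum]
    refine avg_mono fun x => ?_
    have h4 := cotypeWith_l2 hr hC hZ J fun i => Gi i x
    rwa [Fintype.card_coe] at h4
  have hne : (Finset.univ : Finset J).Nonempty := by
    obtain ⟨a, ha⟩ := hJ
    exact ⟨⟨a, ha⟩, Finset.mem_univ _⟩
  have h5 : ∑ i : J, n * nrm (Gi i) ^ 2 ≤
      ∑ _i : J, (C * n ^ (1 / 2 - 1 / r)) ^ 2 * nrm G ^ 2 := by
    rw [← Finset.mul_sum, Finset.sum_const, nsmul_eq_mul, Finset.card_univ, Fintype.card_coe]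
    exact mul_le_mul_of_nonneg_left h3 hn0.le
  obtain ⟨i, -, hi⟩ := Finset.exists_le_of_sum_le hne h5
  refine ⟨i, i.2, ?_⟩
  change n * nrm (Gi i) ^ R ≤ _
  set a := nrm (Gi i) with ha
  set b := nrm G with hb
  have ha0 : 0 ≤ a := nrm_nonneg _
  have hb0 : 0 ≤ b := nrm_nonneg _
  have hr0 : 0 < r := by linarith
  have hR0 : (0:ℝ) < R := by linarith
  set t : ℝ := n ^ (1 / (R:ℝ)) with ht
  have ht0 : 0 ≤ t := by positivity
  have htR : t ^ R = n := by
    rw [ht, ← Real.rpow_natCast, ← Real.rpow_mul hn0.le, one_div, inv_mul_cancel₀ hR0.ne',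
      Real.rpow_one]
  set w : ℝ := n ^ (1 / 2 - 1 / r) with hw
  have hw0 : 0 < w := by positivity
  have h6 : (t * w) ^ 2 ≤ n := by
    rw [ht, hw, ← Real.rpow_add hn0, ← Real.rpow_natCast, ← Real.rpow_mul hn0.le]
    calc n ^ ((1 / (R:ℝ) + (1 / 2 - 1 / r)) * ((2:ℕ):ℝ)) ≤ n ^ (1:ℝ) := by
          refine Real.rpow_le_rpow_of_exponent_le hn1 ?_
          have : 1 / (R:ℝ) ≤ 1 / r := one_div_le_one_div_of_le hr0 hR
          push_cast
          linarith
      _ = n := Real.rpow_one n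
  have h7 : (t * a) ^ 2 ≤ (C * b) ^ 2 := by
    have h8 : w ^ 2 * (t * a) ^ 2 ≤ w ^ 2 * (C * b) ^ 2 := by
      calc w ^ 2 * (t * a) ^ 2 = (t * w) ^ 2 * a ^ 2 := by ring
        _ ≤ n * a ^ 2 := mul_le_mul_of_nonneg_right h6 (sq_nonneg _)
        _ ≤ (C * w) ^ 2 * b ^ 2 := hi
        _ = _ := by ring
    exact le_of_mul_le_mul_left h8 (by positivity)
  have h9 : t * a ≤ C * b := HM.le_of_sq_le_sq h7 (by positivity)
  calc n * a ^ R = (t * a) ^ R := by rw [mul_pow, htR]
    _ ≤ (C * b) ^ R := pow_le_pow_left₀ (by positivity) h9 R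

/-- Iterated selection. -/
theorem iter {r C : ℝ} (hr : 2 ≤ r) (hC : 0 ≤ C) (hZ : CotypeWith r C Z) {R : ℕ}
    (hR : r ≤ R) {L : Type} [DecidableEq L] (c : I → L) {n : ℕ} (hn : 1 ≤ n) (s : Finset L) :
    (∀ l ∈ s, n ≤ #(Finset.univ.filter fun x => c x = l)) → ∀ H : (I → ℤˣ) → Z,
    ∃ U : L → Finset I, (∀ l ∈ s, ∃ x, c x = l ∧ U l = {x}) ∧
      ∀ S₀ : Finset I, (∀ l ∈ s, S₀.filter (fun x => c x = l) = U l) →
        (n : ℝ) ^ #s * ‖wc S₀ H‖ ^ R ≤ (C ^ #s * nrm (mm (pm s c) H)) ^ R := by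
  induction s using Finset.induction_on with
  | empty =>
    intro _ H
    refine ⟨fun _ => ∅, fun l hl => absurd hl (Finset.notMem_empty l), fun S₀ _ => ?_⟩
    have h1 : pm (∅ : Finset L) c = fun _ => 1 := by
      funext S
      simp [pm]
    rw [h1, mm_one]
    simp only [Finset.card_empty, pow_zero, one_mul]
    exact pow_le_pow_left₀ (norm_nonneg _) (norm_wc_le_nrm S₀ H) R
  | insert a s ha ih =>
    intro hs H
    set J : Finset I := Finset.univ.filter fun x => c x = a with hJ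
    have hJn : n ≤ #J := hs a (Finset.mem_insert_self a s)
    have hJne : J.Nonempty := Finset.card_pos.mp (by omega)
    have hfil : ∀ S : Finset I, S ∩ J = S.filter fun x => c x = a := by
      intro S
      ext x
      simp [hJ]
    obtain ⟨i, hi, hsel⟩ := select hr hC hZ hR J hJne (mm (pm s c) H)
    have hci : c i = a := (Finset.mem_filter.mp hi).2
    set H' := mm (fun S => if S ∩ J = {i} then (1:ℝ) else 0) H with hH'
    obtain ⟨U, hU1, hU2⟩ := ih (fun l hl => hs l (Finset.mem_insert_of_mem hl)) H'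
    refine ⟨Function.update U a {i}, ?_, ?_⟩
    · intro l hl
      rcases Finset.mem_insert.mp hl with rfl | hl'
      · exact ⟨i, hci, Function.update_self _ _ _⟩
      · have hla : l ≠ a := fun h => ha (h ▸ hl')
        rw [Function.update_of_ne hla]
        exact hU1 l hl'
    · intro S₀ hS₀
      have h1 := hU2 S₀ (fun l hl => by
        have hla : l ≠ a := fun h => ha (h ▸ hl)
        have := hS₀ l (Finset.mem_insert_of_mem hl)
        rwa [Function.update_of_ne hla] at this)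
      have h2 : S₀ ∩ J = {i} := by
        have := hS₀ a (Finset.mem_insert_self a s)
        rwa [Function.update_self, ← hfil] at this
      have h3 : wc S₀ H' = wc S₀ H := by
        rw [hH', wc_mm, if_pos h2, one_smul]
      have h4 : mm (pm s c) H' =
          mm (fun S => if S ∩ J = {i} then (1:ℝ) else 0) (mm (pm s c) H) := by
        rw [hH', mm_mm, mm_mm]
        congr 1
        funext S
        ring
      have h5 : mm (fun S => tau #(S ∩ J)) (mm (pm s c) H) = mm (pm (insert a s) c) H := by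
        rw [mm_mm]
        congr 1
        funext S
        rw [pm, pm, Finset.prod_insert ha, hfil]
      rw [h3, h4] at h1
      rw [h5] at hsel
      rw [Finset.card_insert_of_notMem ha]
      set p := nrm (mm (fun S => if S ∩ J = {i} then (1:ℝ) else 0) (mm (pm s c) H)) with hp
      set w := nrm (mm (pm (insert a s) c) H) with hw
      have hp0 : 0 ≤ p := nrm_nonneg _
      have h6 : (n : ℝ) * p ^ R ≤ (C * w) ^ R := by
        refine le_trans ?_ hsel
        exact mul_le_mul_of_nonneg_right (by exact_mod_cast hJn) (by positivity)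
      calc (n : ℝ) ^ (#s + 1) * ‖wc S₀ H‖ ^ R = n * ((n : ℝ) ^ #s * ‖wc S₀ H‖ ^ R) := by ring
        _ ≤ n * (C ^ #s * p) ^ R := mul_le_mul_of_nonneg_left h1 (Nat.cast_nonneg _)
        _ = (C ^ #s) ^ R * (n * p ^ R) := by ring
        _ ≤ (C ^ #s) ^ R * (C * w) ^ R := mul_le_mul_of_nonneg_left h6 (by positivity)
        _ = _ := by rw [← mul_pow, pow_succ, mul_assoc]

end

end Vale.Agent.N111
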