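import Vale.Agent.P111.SF.Fin

/-!
The scale free step for operators between two different spaces.
-/

set_option linter.unusedSectionVars false

namespace Vale.Agent.N111

open Finset Vale.Agent.P111 Vale.Agent.P111.TK Vale.Agent.P111.TW Vale.Agent.P111.SF

universe u v

section

variable {D M' : ℕ} {X Y : Type*} [NormedAddCommGroup X] [NormedSpace ℝ X]
  [NormedAddCommGroup Y] [NormedSpace ℝ Y]

/-- The Fourier coefficients of `T^* θ`. -/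
noncomputable def fo (T : X →L[ℝ] Y) (θ : (Fin D → ℤˣ) → (Y →L[ℝ] ℝ)) (b : Fin D → ℤˣ) :
    X →L[ℝ] ℝ :=
  avg fun x : Fin D → ℤˣ => sg (chi b x) • (θ x).comp T

/-- The number of Fourier coefficients of `T^* θ` of norm at least `e`. -/
noncomputable def cno (T : X →L[ℝ] Y) (θ : (Fin D → ℤˣ) → (Y →L[ℝ] ℝ)) (e : ℝ) : ℕ :=
  #(Finset.univ.filter fun b : Fin D → ℤˣ => e ≤ ‖fo T θ b‖)

/-- All bounded functions have at most `n` Fourier coefficients of norm at least `e`. -/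
def CBo (T : X →L[ℝ] Y) (e n : ℝ) : Prop :=
  ∀ (D : ℕ) (θ : (Fin D → ℤˣ) → (Y →L[ℝ] ℝ)), (∀ x, ‖θ x‖ ≤ 1) → (cno T θ e : ℝ) ≤ n

theorem wc_comp2 {I : Type} [Fintype I] [DecidableEq I] (T : X →L[ℝ] Y) (U : Finset I)
    (ν : (I → ℤˣ) → (Y →L[ℝ] ℝ)) :
    wc U (fun δ => (ν δ).comp T) = (wc U ν).comp T := by
  ext y
  rw [wc_apply, ContinuousLinearMap.comp_apply, wc_apply]
  rfl

theorem fo_flat (T : X →L[ℝ] Y) (ν : (Fin M' → Fin D → ℤˣ) → (Fin M' → ℤˣ) → (Y →L[ℝ] ℝ))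
    (U : Finset (Fin M')) (s : ℝ) (b : Fin M' → Fin D → ℤˣ) :
    fo T (fun y => s • wc U (ν ((flat M' D).symm y))) (flat M' D b) =
      s • nh (fun x δ => (ν x δ).comp T) U b := by
  rw [fo, ← avg_comp_equiv (flat M' D), nh, ← avg_smul]
  refine avg_congr fun x => ?_
  rw [chi_flat, Equiv.symm_apply_apply, wc_comp2, ContinuousLinearMap.smul_comp, smul_comm]

end

section

variable {i : ℕ} {S X Y : Type*} [Fintype S] [Nonempty S] [NormedAddCommGroup X] [NormedSpace ℝ X]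
  [NormedAddCommGroup Y] [NormedSpace ℝ Y]

theorem orb_comp2 (T : X →L[ℝ] Y) (act : (Fin i → ℤˣ) → S ≃ S) (Θ : S → (Y →L[ℝ] ℝ))
    (β : Fin i → ℤˣ) (y : S) :
    orb act (fun y => (Θ y).comp T) β y = fo T (fun h => Θ (act h y)) β := rfl

theorem fo_smul {D : ℕ} (T : X →L[ℝ] Y) (c : ℝ) (θ : (Fin D → ℤˣ) → (Y →L[ℝ] ℝ))
    (b : Fin D → ℤˣ) : fo T (fun x => c • θ x) b = c • fo T θ b := by
  rw [fo, fo, ← avg_smul]
  refine avg_congr fun x => ?_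
  rw [ContinuousLinearMap.smul_comp, smul_comm]

theorem norm_fo_le {D : ℕ} {T : X →L[ℝ] Y} {C b : ℝ} (hT : ‖T‖ ≤ C)
    (θ : (Fin D → ℤˣ) → (Y →L[ℝ] ℝ)) (hθ : ∀ x, ‖θ x‖ ≤ b) (β : Fin D → ℤˣ) :
    ‖fo T θ β‖ ≤ b * C := by
  have hb : 0 ≤ b := (norm_nonneg _).trans (hθ 1)
  refine norm_avg_le' _ _ fun x => ?_
  rw [norm_smul, Real.norm_eq_abs, abs_sg, one_mul]
  exact (ContinuousLinearMap.opNorm_comp_le _ _).trans
    (mul_le_mul (hθ x) hT (norm_nonneg _) hb)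

/-- The extremality lemma in terms of `CBo`. -/
theorem ext_CBo {T : X →L[ℝ] Y} {C R n₁ B B₂ W : ℝ} (hT : ‖T‖ ≤ C) (hR : 0 < R)
    (hCB : CBo T (2 / R) n₁) (act : (Fin i → ℤˣ) → S ≃ S) (BB : Finset (Fin i → ℤˣ))
    (Θ : S → (Y →L[ℝ] ℝ)) (hB₂ : 0 < B₂) (hΘ : ∀ y, ‖Θ y‖ ≤ B₂)
    (U : (Fin i → ℤˣ) → S → ((X →L[ℝ] ℝ) →L[ℝ] ℝ)) (w : (Fin i → ℤˣ) → S → ℝ)
    (hB : 0 < B) (hW : 0 ≤ W)
    (hw0 : ∀ β ∈ BB, ∀ y, 0 ≤ w β y) (hwW : ∀ β ∈ BB, ∀ y, w β y ≤ W)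
    (hw1 : ∀ β ∈ BB, avg (w β) ≤ 1)
    (hU : ∀ β ∈ BB, ∀ y, ‖U β y‖ ≤ B * w β y)
    (hcov : ∀ β ∈ BB, ∀ h y, U β (act h y) = sg (chi β h) • U β y)
    (hbig : ∀ β ∈ BB, 4 * (B * B₂) / R ≤ |avg fun y => U β y ((Θ y).comp T)|) :
    (#BB : ℝ) ≤ R / 2 * (W * (C * n₁)) := by
  have hC : 0 ≤ C := (norm_nonneg _).trans hT
  have h1 := ext_card act BB (fun y => (Θ y).comp T) U w (t := 2 / R * B₂) (B := B) (W := W)
    (b := B₂ * C) (N' := n₁) hB (by positivity) (by positivity) hW hw0 hwW hw1 hU hcov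
    (fun β y => by
      rw [orb_comp2]
      exact norm_fo_le hT _ (fun h => hΘ _) β)
    (fun y => by
      have h2 := hCB i (fun h => B₂⁻¹ • Θ (act h y)) (fun h => by
        rw [norm_smul, norm_inv, Real.norm_of_nonneg hB₂.le, inv_mul_le_iff₀ hB₂, mul_one]
        exact hΘ _)
      refine le_trans ?_ h2
      rw [cno]
      have h3 : (univ.filter fun β => 2 / R * B₂ ≤ ‖orb act (fun y => (Θ y).comp T) β y‖) ⊆
          univ.filter fun β : Fin i → ℤˣ => 2 / R ≤ ‖fo T (fun h => B₂⁻¹ • Θ (act h y)) β‖ := by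
        intro β hβ
        rw [Finset.mem_filter] at hβ ⊢
        refine ⟨hβ.1, ?_⟩
        rw [fo_smul, norm_smul, norm_inv, Real.norm_of_nonneg hB₂.le, ← orb_comp2,
          inv_mul_eq_div, le_div_iff₀ hB₂]
        exact hβ.2
      exact_mod_cast Finset.card_le_card h3)
    (fun β hβ => by
      refine le_trans (le_of_eq ?_) (hbig β hβ)
      ring)
  have h4 : 2 / R * B₂ * (#BB : ℝ) ≤ 2 / R * B₂ * (R / 2 * (W * (C * n₁))) := by
    refine h1.trans (le_of_eq ?_)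
    field_simp
  exact le_of_mul_le_mul_left h4 (by positivity)

end

section

variable {i D M M' : ℕ} {X Y : Type*} [NormedAddCommGroup X] [NormedSpace ℝ X]
  [NormedAddCommGroup Y] [NormedSpace ℝ Y]

/-- First instance: the function `θ` itself. -/
theorem exo1 {T : X →L[ℝ] Y} {C R n₁ B₁ : ℝ} (hT : ‖T‖ ≤ C) (hR : 0 < R)
    (hCB : CBo T (2 / R) n₁) {θ : (Fin D → ℤˣ) → (Y →L[ℝ] ℝ)} (hθ : ∀ x, ‖θ x‖ ≤ 1)
    {p : Fin i → Fin D → ℤˣ} {BB : Finset (Fin i → ℤˣ)}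
    {J : (Fin i → ℤˣ) → Fin M → Fin D → ℤˣ} (hJp : ∀ β ∈ BB, ∀ a l, chi (J β a) (p l) = β l)
    (hB₁ : 0 < B₁) {Z : (Fin i → ℤˣ) → (Fin M → ℤˣ) → ((X →L[ℝ] ℝ) →L[ℝ] ℝ)}
    (hZ : ∀ β ε, ‖Z β ε‖ ≤ B₁) (hZo : ∀ β ε, Z β (-ε) = - Z β ε) :
    (#(BB.filter fun β => ∃ ω : Fin M → ℤˣ, 4 * B₁ / R <
      |∑ S, cc (J β) (Z β) (fun x => (θ x).comp T) S * walsh S ω|) : ℝ) ≤ R / 2 * (C * n₁) := by
  classical
  set BB' := BB.filter fun β => ∃ ω : Fin M → ℤˣ, 4 * B₁ / R <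
      |∑ S, cc (J β) (Z β) (fun x => (θ x).comp T) S * walsh S ω| with hBB'
  have hex : ∀ β : Fin i → ℤˣ, ∃ ω : Fin M → ℤˣ, β ∈ BB' → 4 * B₁ / R <
      |∑ S, cc (J β) (Z β) (fun x => (θ x).comp T) S * walsh S ω| := by
    intro β
    by_cases h : β ∈ BB'
    · obtain ⟨ω, hω⟩ := (Finset.mem_filter.mp h).2
      exact ⟨ω, fun _ => hω⟩
    · exact ⟨1, fun h' => absurd h' h⟩
  choose om hom using hex
  have hmem : ∀ β ∈ BB', β ∈ BB := fun β hβ => (Finset.mem_filter.mp hβ).1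
  have h1 := ext_CBo (S := Fin D → ℤˣ) (B := B₁) (B₂ := 1) (W := 1) hT hR hCB
    (fun h => Equiv.mulRight (ph p h)) BB' θ one_pos hθ
    (fun β x => Z β (om β * fun a => chi (J β a) x)) (fun _ _ => 1) hB₁ zero_le_one
    (fun _ _ _ => zero_le_one) (fun _ _ _ => le_rfl) (fun _ _ => (avg_const (1:ℝ)).le)
    (fun β _ x => by rw [mul_one]; exact hZ β _)
    (fun β hβ h x => by
      rw [← odd_sg (hZo β)]
      congr 1
      funext a
      simp only [Equiv.coe_mulRight, Pi.mul_apply]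
      rw [chi_mul_right, chi_ph (hJp β (hmem β hβ) a), mul_assoc])
    (fun β hβ => by
      have h2 := (hom β hβ).le
      have h3 : ∑ S, cc (J β) (Z β) (fun x => (θ x).comp T) S * walsh S (om β) =
          avg fun x : Fin D → ℤˣ => Z β (om β * fun a => chi (J β a) x) ((θ x).comp T) :=
        resum_eq (Z β) (fun (x : Fin D → ℤˣ) a => chi (J β a) x) _ (om β)
      rw [h3] at h2
      rw [mul_one]
      exact h2)
  rw [one_mul] at h1
  exact h1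

/-- Second instance: the Walsh coefficients of the lifts. -/
theorem exo2 {T : X →L[ℝ] Y} {C R n₁ B₁ B₂ : ℝ} (hT : ‖T‖ ≤ C) (hR : 0 < R)
    (hCB : CBo T (2 / R) n₁)
    {ν : (Fin M' → Fin D → ℤˣ) → (Fin M' → ℤˣ) → (Y →L[ℝ] ℝ)} (hB₂ : 0 < B₂)
    (hν : ∀ x δ, ‖ν x δ‖ ≤ B₂)
    {p : Fin i → Fin D → ℤˣ} {BB : Finset (Fin i → ℤˣ)}
    {J : (Fin i → ℤˣ) → Fin M → Fin D → ℤˣ} (hJp : ∀ β ∈ BB, ∀ a l, chi (J β a) (p l) = β l)
    (hB₁ : 0 < B₁) {Z : (Fin i → ℤˣ) → (Fin M → ℤˣ) → ((X →L[ℝ] ℝ) →L[ℝ] ℝ)}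
    (hZ : ∀ β ε, ‖Z β ε‖ ≤ B₁) (hZo : ∀ β ε, Z β (-ε) = - Z β ε)
    (U : Finset (Fin M')) (hU : Odd #U) :
    (#(BB.filter fun β => ∃ ω : Fin M → ℤˣ, 4 * (B₁ * B₂) / R <
      |∑ S, kap (J β) (Z β) (fun x δ => (ν x δ).comp T) S U * walsh S ω|) : ℝ) ≤
      R / 2 * (C * n₁) := by
  classical
  set BB' := BB.filter fun β => ∃ ω : Fin M → ℤˣ, 4 * (B₁ * B₂) / R <
      |∑ S, kap (J β) (Z β) (fun x δ => (ν x δ).comp T) S U * walsh S ω| with hBB'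
  have hex : ∀ β : Fin i → ℤˣ, ∃ ω : Fin M → ℤˣ, β ∈ BB' → 4 * (B₁ * B₂) / R <
      |∑ S, kap (J β) (Z β) (fun x δ => (ν x δ).comp T) S U * walsh S ω| := by
    intro β
    by_cases h : β ∈ BB'
    · obtain ⟨ω, hω⟩ := (Finset.mem_filter.mp h).2
      exact ⟨ω, fun _ => hω⟩
    · exact ⟨1, fun h' => absurd h' h⟩
  choose om hom using hex
  have hmem : ∀ β ∈ BB', β ∈ BB := fun β hβ => (Finset.mem_filter.mp hβ).1
  have h1 := ext_CBo (S := Fin M' → Fin D → ℤˣ) (B := B₁) (B₂ := B₂) (W := 1) hT hR hCB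
    (fun h => Equiv.mulRight (fun _ => ph p h)) BB' (fun x => wc U (ν x)) hB₂
    (fun x => norm_wc_le U (ν x) (hν x))
    (fun β x => Z β (om β * fun a => ∏ k ∈ U, chi (J β a) (x k))) (fun _ _ => 1) hB₁ zero_le_one
    (fun _ _ _ => zero_le_one) (fun _ _ _ => le_rfl) (fun _ _ => (avg_const (1:ℝ)).le)
    (fun β _ x => by rw [mul_one]; exact hZ β _)
    (fun β hβ h x => by
      rw [← odd_sg (hZo β)]
      congr 1
      funext a
      simp only [Equiv.coe_mulRight, Pi.mul_apply]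
      have h4 : ∀ k ∈ U, chi (J β a) (x k * ph p h) = chi (J β a) (x k) * chi β h := by
        intro k _
        rw [chi_mul_right, chi_ph (hJp β (hmem β hβ) a)]
      rw [Finset.prod_congr rfl h4, Finset.prod_mul_distrib, Finset.prod_const, mul_assoc]
      congr 2
      obtain ⟨m, hm⟩ := hU
      rw [hm, pow_succ, pow_mul, sq, Int.units_mul_self, one_pow, one_mul])
    (fun β hβ => by
      have h2 := (hom β hβ).le
      have h5 : ∀ S : Finset (Fin M), kap (J β) (Z β) (fun x δ => (ν x δ).comp T) S U =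
          (wc S (Z β)) (avg fun x : Fin M' → Fin D → ℤˣ =>
            walsh S (fun a => ∏ k ∈ U, chi (J β a) (x k)) • (wc U (ν x)).comp T) := by
        intro S
        rw [kap, nh]
        congr 1
        refine avg_congr fun x => ?_
        rw [Chi_bic, wc_comp2]
      have h3 : ∑ S, kap (J β) (Z β) (fun x δ => (ν x δ).comp T) S U * walsh S (om β) =
          avg fun x : Fin M' → Fin D → ℤˣ =>
            Z β (om β * fun a => ∏ k ∈ U, chi (J β a) (x k)) ((wc U (ν x)).comp T) := by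
        rw [Finset.sum_congr rfl fun S _ => by rw [h5 S]]
        exact resum_eq (Z β)
          (fun (x : Fin M' → Fin D → ℤˣ) a => ∏ k ∈ U, chi (J β a) (x k)) _ (om β)
      rw [h3] at h2
      exact h2)
  rw [one_mul] at h1
  exact h1
/-- Third instance: the pairing. -/
theorem exo3 {T : X →L[ℝ] Y} {C R n₁ B₁ B₂ : ℝ} (hT : ‖T‖ ≤ C) (hR : 0 < R)
    (hCB : CBo T (2 / R) n₁)
    {ν : (Fin M' → Fin D → ℤˣ) → (Fin M' → ℤˣ) → (Y →L[ℝ] ℝ)} (hB₂ : 0 < B₂)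
    (hν : ∀ x δ, ‖ν x δ‖ ≤ B₂)
    {p : Fin i → Fin D → ℤˣ} {BB : Finset (Fin i → ℤˣ)}
    {J : (Fin i → ℤˣ) → Fin M → Fin D → ℤˣ} (hJp : ∀ β ∈ BB, ∀ a l, chi (J β a) (p l) = β l)
    (hJ : ∀ β ∈ BB, ∀ S : Finset (Fin M), S.Nonempty → JT (J β) S ≠ 1)
    (hB₁ : 0 < B₁) {Z : (Fin i → ℤˣ) → (Fin M → ℤˣ) → ((X →L[ℝ] ℝ) →L[ℝ] ℝ)}
    (hZ : ∀ β ε, ‖Z β ε‖ ≤ B₁) (hZo : ∀ β ε, Z β (-ε) = - Z β ε) :
    (#(BB.filter fun β => ∃ A : Fin M → Fin M' → ℤˣ, 4 * (B₁ * B₂) / R <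
      |beta (J β) (Z β) (fun x δ => (ν x δ).comp T) A|) : ℝ) ≤
      R / 2 * ((2 ^ M) ^ M' * (C * n₁)) := by
  classical
  set BB' := BB.filter fun β => ∃ A : Fin M → Fin M' → ℤˣ, 4 * (B₁ * B₂) / R <
      |beta (J β) (Z β) (fun x δ => (ν x δ).comp T) A| with hBB'
  have hex : ∀ β : Fin i → ℤˣ, ∃ A : Fin M → Fin M' → ℤˣ, β ∈ BB' → 4 * (B₁ * B₂) / R <
      |beta (J β) (Z β) (fun x δ => (ν x δ).comp T) A| := by
    intro β
    by_cases h : β ∈ BB'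
    · obtain ⟨ω, hω⟩ := (Finset.mem_filter.mp h).2
      exact ⟨ω, fun _ => hω⟩
    · exact ⟨1, fun h' => absurd h' h⟩
  choose A hA using hex
  have hmem : ∀ β ∈ BB', β ∈ BB := fun β hβ => (Finset.mem_filter.mp hβ).1
  exact ext_CBo (S := (Fin M' → Fin D → ℤˣ) × (Fin M' → ℤˣ)) (B := B₁) (B₂ := B₂)
    (W := (2 ^ M) ^ M') hT hR hCB
    (fun h => Equiv.prodCongr (Equiv.mulRight (fun _ => ph p h)) (Equiv.refl _)) BB'
    (fun y => ν y.1 y.2) hB₂ (fun y => hν _ _)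
    (fun β y => UU (J β) (Z β) (A β) y) (fun β y => uw (J β) (A β) y)
    hB₁ (by positivity)
    (fun β _ y => uw_nonneg _ _ y) (fun β _ y => uw_le _ _ y)
    (fun β hβ => (avg_uw (hJ β (hmem β hβ)) (A β)).le)
    (fun β _ y => norm_UU_le (hZ β) (A β) y)
    (fun β hβ h y => UU_cov (hZo β) (fun a => chi_ph (hJp β (hmem β hβ) a) h) (A β) y.1 y.2)
    (fun β hβ => by
      have h1 := avg_UU (J β) (Z β) (A β) (fun x δ => (ν x δ).comp T)
      rw [h1]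
      exact (hA β hβ).le)

/-- The size of the bad set. -/
theorem bad_le2 (T : X →L[ℝ] Y) {ν : (Fin M' → Fin D → ℤˣ) → (Fin M' → ℤˣ) → (Y →L[ℝ] ℝ)}
    {B2 e' : ℝ} (hB2 : 0 < B2) :
    ∃ U : Finset (Fin M'), (#(Finset.univ.filter fun b : Fin M' → Fin D → ℤˣ =>
      ∃ U, e' < ‖nh (fun x δ => (ν x δ).comp T) U b‖) : ℝ) ≤
      2 ^ M' * cno T (thU ν B2 U) (e' / B2) := by
  classical
  set B : Finset (Fin M' → Fin D → ℤˣ) := Finset.univ.filter fun b =>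
    ∃ U, e' < ‖nh (fun x δ => (ν x δ).comp T) U b‖ with hB
  have hcard : ∀ U : Finset (Fin M'), #(Finset.univ.filter fun b : Fin M' → Fin D → ℤˣ =>
      e' < ‖nh (fun x δ => (ν x δ).comp T) U b‖) ≤ cno T (thU ν B2 U) (e' / B2) := by
    intro U
    refine Finset.card_le_card_of_injOn (flat M' D) ?_ (flat M' D).injective.injOn
    intro b hb
    rw [Finset.mem_coe, Finset.mem_filter] at hb ⊢
    refine ⟨Finset.mem_univ _, ?_⟩
    unfold thU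
    rw [fo_flat, norm_smul, norm_inv, Real.norm_of_nonneg hB2.le, div_eq_inv_mul]
    exact mul_le_mul_of_nonneg_left hb.2.le (by positivity)
  by_contra hc
  push Not at hc
  have h1 : (#B : ℝ) ≤ ∑ U : Finset (Fin M'), (cno T (thU ν B2 U) (e' / B2) : ℝ) := by
    have h2 : B ⊆ Finset.univ.biUnion fun U : Finset (Fin M') =>
        Finset.univ.filter fun b : Fin M' → Fin D → ℤˣ =>
          e' < ‖nh (fun x δ => (ν x δ).comp T) U b‖ := by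
      intro b hb
      rw [hB, Finset.mem_filter] at hb
      obtain ⟨U, hU⟩ := hb.2
      rw [Finset.mem_biUnion]
      exact ⟨U, Finset.mem_univ _, Finset.mem_filter.mpr ⟨Finset.mem_univ _, hU⟩⟩
    have h3 : #B ≤ ∑ U : Finset (Fin M'), cno T (thU ν B2 U) (e' / B2) :=
      ((Finset.card_le_card h2).trans Finset.card_biUnion_le).trans
        (Finset.sum_le_sum fun U _ => hcard U)
    exact_mod_cast h3
  have h4 : ∑ _U : Finset (Fin M'), (#B : ℝ) = 2 ^ M' * #B := by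
    rw [Finset.sum_const, nsmul_eq_mul, Finset.card_univ, Fintype.card_finset, Fintype.card_fin]
    push_cast
    ring
  have h5 : ∑ U : Finset (Fin M'), 2 ^ M' * (cno T (thU ν B2 U) (e' / B2) : ℝ) <
      ∑ _U : Finset (Fin M'), (#B : ℝ) :=
    Finset.sum_lt_sum_of_nonempty Finset.univ_nonempty fun U _ => hc U
  rw [h4, ← Finset.mul_sum] at h5
  have h6 : (0:ℝ) < 2 ^ M' := by positivity
  nlinarith

end

/-- **The scale free step.** -/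
theorem step_two (hfib : ∀ M M' : ℕ, ∃ L : ℝ, 1 ≤ L ∧ Fibres M M' L) (q r C : ℝ)
    (hq : 2 ≤ q) (hr : 2 ≤ r) (hC : 1 ≤ C) :
    ∃ C₀ K₀ : ℝ, 1 ≤ C₀ ∧ 1 ≤ K₀ ∧ ∀ (X : Type u) (Y : Type v) [NormedAddCommGroup X] [NormedSpace ℝ X]
      [NormedAddCommGroup Y] [NormedSpace ℝ Y]
      (T : X →L[ℝ] Y), CotypeWith q C Y → CotypeWith r C (X →L[ℝ] ℝ) → ‖T‖ ≤ C →
      ∀ R n₁ : ℝ, 0 < R → 0 ≤ n₁ → CBo T (2 / R) n₁ →
      ∀ (D : ℕ) (θ : (Fin D → ℤˣ) → (Y →L[ℝ] ℝ)), (∀ x, ‖θ x‖ ≤ 1) →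
      C₀ * (1 + R) * (1 + n₁) ≤ cno T θ (1 / R) →
      ∃ (D' : ℕ) (θ' : (Fin D' → ℤˣ) → (Y →L[ℝ] ℝ)), (∀ x, ‖θ' x‖ ≤ 1) ∧
        (cno T θ (1 / R) : ℝ) ^ 2 ≤ C₀ * cno T θ' (1 / (K₀ * R)) := by
  classical
  obtain ⟨M, M', hM, hM', hcore⟩ := SY.vcore' q r (24 * C) hq hr (by linarith)
  obtain ⟨L₀, hL₀1, hL₀⟩ := hfib M M'
  have hC0 : 0 < C := by linarith
  obtain ⟨a, ha⟩ : ∃ a : ℝ, a = (M : ℝ) ^ (1 - 1 / r) := ⟨_, rfl⟩
  obtain ⟨a', ha'⟩ : ∃ a' : ℝ, a' = (M' : ℝ) ^ (1 - 1 / q) := ⟨_, rfl⟩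
  have ha1 : 1 ≤ a := by rw [ha]; exact SY.rpow_ge_one hM hr
  have ha1' : 1 ≤ a' := by rw [ha']; exact SY.rpow_ge_one hM' hq
  rw [← ha, ← ha'] at hcore
  obtain ⟨B1, hB1⟩ : ∃ B1 : ℝ, B1 = 6 * C * a := ⟨_, rfl⟩
  obtain ⟨B2, hB2⟩ : ∃ B2 : ℝ, B2 = 3 * C * a' := ⟨_, rfl⟩
  obtain ⟨E, hE⟩ : ∃ E : ℝ, E = ((2 : ℝ) ^ M) ^ M' := ⟨_, rfl⟩
  obtain ⟨G, hG⟩ : ∃ G : ℝ, G = (2 + 2 ^ M') * E * C := ⟨_, rfl⟩
  have hB10 : 0 < B1 := by rw [hB1]; positivity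
  have hB20 : 0 < B2 := by rw [hB2]; positivity
  have hB21 : 1 ≤ B2 := by rw [hB2]; nlinarith
  have hE1 : 1 ≤ E := by rw [hE]; exact one_le_pow₀ (one_le_pow₀ (by norm_num))
  have hE0 : 0 < E := by linarith
  have h2M' : (1:ℝ) ≤ 2 ^ M' := one_le_pow₀ (by norm_num)
  have hEC : 1 ≤ E * C := one_le_mul_of_one_le_of_one_le hE1 hC
  have hG1 : 2 ^ M' ≤ G := by
    rw [hG, mul_assoc]
    nlinarith
  have hG1' : 1 ≤ G := h2M'.trans hG1
  have hL₀0 : 0 < L₀ := by linarith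
  refine ⟨L₀ * G, E * B2, one_le_mul_of_one_le_of_one_le hL₀1 hG1',
    one_le_mul_of_one_le_of_one_le hE1 hB21, ?_⟩
  intro X Y _ _ _ _ T hX hX' hT R n₁ hR hn₁ hCB D θ hθ hbig
  obtain ⟨Λ, hΛ⟩ : ∃ Λ : Finset (Fin D → ℤˣ), Λ = Finset.univ.filter fun b =>
    1 / R ≤ ‖fo T θ b‖ := ⟨_, rfl⟩
  have hcnt : cno T θ (1 / R) = #Λ := by rw [cno, hΛ]
  rw [hcnt] at hbig ⊢
  -- the lifts in the second variable
  have hlift : ∀ x : Fin M' → Fin D → ℤˣ, ∃ ν : (Fin M' → ℤˣ) → (Y →L[ℝ] ℝ),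
      (∀ δ, ‖ν δ‖ ≤ 3 * C * 1 * (M' : ℝ) ^ (1 - 1 / q)) ∧ (∀ δ, ν (-δ) = - ν δ) ∧
      ∀ k, wc {k} ν = θ (x k) := fun x =>
    lift_sup hq hC0.le zero_le_one hX (fun k => θ (x k)) (fun k => hθ (x k))
  choose ν hν hνo hνk using hlift
  simp only [mul_one] at hν
  rw [← ha', ← hB2] at hν
  obtain ⟨e', he'⟩ : ∃ e' : ℝ, e' = E⁻¹ / R := ⟨_, rfl⟩
  have he'0 : 0 < e' := by rw [he']; positivity
  obtain ⟨Bad, hBad⟩ : ∃ Bad : Finset (Fin M' → Fin D → ℤˣ), Bad = Finset.univ.filter fun b =>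
    ∃ U, e' < ‖nh (fun x δ => (ν x δ).comp T) U b‖ := ⟨_, rfl⟩
  by_cases hcase : L₀ * #Bad < (#Λ : ℝ) ^ 2
  swap
  · -- the bad set is large
    rw [not_lt] at hcase
    obtain ⟨U, hU⟩ := bad_le2 (e' := e') T (ν := ν) hB20
    refine ⟨M' * D, thU ν B2 U, thU_norm hB20 hν U, ?_⟩
    have h1 : e' / B2 = 1 / (E * B2 * R) := by
      rw [he']
      field_simp
    rw [← hBad, h1] at hU
    calc (#Λ : ℝ) ^ 2 ≤ L₀ * #Bad := hcase
      _ ≤ L₀ * (2 ^ M' * cno T (thU ν B2 U) (1 / (E * B2 * R))) :=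
          mul_le_mul_of_nonneg_left hU hL₀0.le
      _ ≤ L₀ * (G * cno T (thU ν B2 U) (1 / (E * B2 * R))) := by
          refine mul_le_mul_of_nonneg_left ?_ hL₀0.le
          exact mul_le_mul_of_nonneg_right hG1 (Nat.cast_nonneg _)
      _ = _ := by ring
  exfalso
  have hLΛ : L₀ ≤ #Λ := by
    refine le_trans ?_ hbig
    have h1 : L₀ ≤ L₀ * G := le_mul_of_one_le_right hL₀0.le hG1'
    have h2 : L₀ * G ≤ L₀ * G * (1 + R) := le_mul_of_one_le_right (by positivity) (by linarith)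
    have h3 : L₀ * G * (1 + R) ≤ L₀ * G * (1 + R) * (1 + n₁) :=
      le_mul_of_one_le_right (by positivity) (by linarith)
    linarith
  obtain ⟨i, p, BB, J, hBB, hJ⟩ := hL₀ D Λ Bad hLΛ hcase
  -- the vectors
  have hvec : ∀ β : Fin i → ℤˣ, ∃ e : Fin M → X, (∀ a, ‖e a‖ ≤ 2 * R) ∧
      (β ∈ BB → ∀ a, fo T θ (J β a) (e a) = 1) := by
    intro β
    by_cases hβ : β ∈ BB
    · have h1 : ∀ a, ∃ x : X, ‖x‖ ≤ 2 * R ∧ fo T θ (J β a) x = 1 := fun a => by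
        have h2 := (hJ β hβ).1 a
        rw [hΛ, Finset.mem_filter] at h2
        exact exists_unit' _ hR h2.2
      choose e he1 he2 using h1
      exact ⟨e, he1, fun _ => he2⟩
    · exact ⟨fun _ => 0, fun _ => by rw [norm_zero]; positivity, fun h => absurd h hβ⟩
  choose e he1 he2 using hvec
  have hlift2 : ∀ β : Fin i → ℤˣ, ∃ Z : (Fin M → ℤˣ) → ((X →L[ℝ] ℝ) →L[ℝ] ℝ),
      (∀ ε, ‖Z ε‖ ≤ 3 * C * (2 * R) * (M : ℝ) ^ (1 - 1 / r)) ∧ (∀ ε, Z (-ε) = - Z ε) ∧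
      ∀ a, wc {a} Z = NormedSpace.inclusionInDoubleDual ℝ X (e β a) := fun β =>
    lift_sup hr hC0.le (by positivity : 0 ≤ 2 * R) hX'
      (fun a => NormedSpace.inclusionInDoubleDual ℝ X (e β a)) (fun a =>
        (NormedSpace.double_dual_bound ℝ X (e β a)).trans (he1 β a))
  choose Z hZ hZo hZk using hlift2
  have hB1R : 3 * C * (2 * R) * (M : ℝ) ^ (1 - 1 / r) = R * B1 := by
    rw [hB1, ha]; ring
  simp only [hB1R] at hZ
  have hRB1 : 0 < R * B1 := by positivity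
  -- the three exceptional sets
  have hJp : ∀ β ∈ BB, ∀ a l, chi (J β a) (p l) = β l := fun β hβ => (hJ β hβ).2.1
  have hJi : ∀ β ∈ BB, ∀ S : Finset (Fin M), S.Nonempty → JT (J β) S ≠ 1 :=
    fun β hβ => (hJ β hβ).2.2.1
  have E1 := exo1 hT hR hCB hθ hJp hRB1 hZ hZo
  have E2 := fun (U : Finset (Fin M')) (hU : Odd #U) =>
    exo2 hT hR hCB hB20 hν hJp hRB1 hZ hZo U hU
  have E3 := exo3 hT hR hCB hB20 hν hJp hJi hRB1 hZ hZo
  obtain ⟨F1, hF1⟩ : ∃ F1 : Finset (Fin i → ℤˣ), F1 = BB.filter fun β => ∃ ω,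
    4 * (R * B1) / R < |∑ S, cc (J β) (Z β) (fun x => (θ x).comp T) S * walsh S ω| := ⟨_, rfl⟩
  obtain ⟨F3, hF3⟩ : ∃ F3 : Finset (Fin i → ℤˣ), F3 = BB.filter fun β => ∃ A,
    4 * (R * B1 * B2) / R < |beta (J β) (Z β) (fun x δ => (ν x δ).comp T) A| := ⟨_, rfl⟩
  obtain ⟨F2, hF2⟩ : ∃ F2 : Finset (Fin M') → Finset (Fin i → ℤˣ), F2 = fun U =>
    if Odd #U then BB.filter fun β => ∃ ω,
      4 * (R * B1 * B2) / R <
        |∑ S, kap (J β) (Z β) (fun x δ => (ν x δ).comp T) S U * walsh S ω|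
    else ∅ := ⟨_, rfl⟩
  rw [← hF1] at E1
  rw [← hF3] at E3
  have E2' : ∀ U, (#(F2 U) : ℝ) ≤ R / 2 * (C * n₁) := by
    intro U
    rw [hF2]
    by_cases hU : Odd #U
    · simp only [if_pos hU]
      exact E2 U hU
    · simp only [if_neg hU, Finset.card_empty, Nat.cast_zero]
      positivity
  have hsum : #F1 + ∑ U, #(F2 U) + #F3 < #BB := by
    have h1 : (#F1 : ℝ) + ∑ U, (#(F2 U) : ℝ) + (#F3 : ℝ) ≤
        R / 2 * (C * n₁) + 2 ^ M' * (R / 2 * (C * n₁)) + R / 2 * (E * (C * n₁)) := by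
      refine add_le_add (add_le_add E1 ?_) ?_
      · calc ∑ U, (#(F2 U) : ℝ) ≤ ∑ _U : Finset (Fin M'), R / 2 * (C * n₁) :=
              Finset.sum_le_sum fun U _ => E2' U
          _ = 2 ^ M' * (R / 2 * (C * n₁)) := by
              rw [Finset.sum_const, nsmul_eq_mul, Finset.card_univ, Fintype.card_finset,
                Fintype.card_fin]
              push_cast
              ring
      · rw [hE]
        exact E3
    have h2 : R / 2 * (C * n₁) + 2 ^ M' * (R / 2 * (C * n₁)) + R / 2 * (E * (C * n₁)) ≤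
        G * (R * n₁) := by
      have h3 : 1 + 2 ^ M' + E ≤ (2 + 2 ^ M') * E := by nlinarith
      have h4 : 0 ≤ C * (R * n₁) := by positivity
      have h5 : (1 + 2 ^ M' + E) * (C * (R * n₁)) ≤ (2 + 2 ^ M') * E * (C * (R * n₁)) :=
        mul_le_mul_of_nonneg_right h3 h4
      have h6 : 0 ≤ (1 + 2 ^ M' + E) * (C * (R * n₁)) := by positivity
      calc R / 2 * (C * n₁) + 2 ^ M' * (R / 2 * (C * n₁)) + R / 2 * (E * (C * n₁))
          = (1 / 2) * ((1 + 2 ^ M' + E) * (C * (R * n₁))) := by ring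
        _ ≤ (1 + 2 ^ M' + E) * (C * (R * n₁)) := by linarith
        _ ≤ (2 + 2 ^ M') * E * (C * (R * n₁)) := h5
        _ = G * (R * n₁) := by rw [hG]; ring
    have h3 : G * (R * n₁) < #BB := by
      have h4 : L₀ * (G * (1 + R) * (1 + n₁)) ≤ L₀ * #BB := by
        calc L₀ * (G * (1 + R) * (1 + n₁)) = L₀ * G * (1 + R) * (1 + n₁) := by ring
          _ ≤ #Λ := hbig
          _ ≤ L₀ * #BB := hBB
      have h5 : G * (1 + R) * (1 + n₁) ≤ #BB := le_of_mul_le_mul_left h4 hL₀0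
      have h6 : 0 ≤ G * R := by positivity
      have h7 : 0 ≤ G * n₁ := by positivity
      nlinarith
    have h4 : ((#F1 + ∑ U, #(F2 U) + #F3 : ℕ) : ℝ) < #BB := by
      push_cast
      linarith
    exact_mod_cast h4
  obtain ⟨β, hβ, hβ1, hβ2, hβ3⟩ := exists_good BB F1 F3 F2 hsum
  have hRR : ∀ t : ℝ, 4 * (R * t) / R = 4 * t := fun t => by field_simp
  have K1 : ∀ ω, |∑ S, cc (J β) (Z β) (fun x => (θ x).comp T) S * walsh S ω| ≤ 4 * B1 := by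
    intro ω
    by_contra hlt
    rw [not_le] at hlt
    refine hβ1 ?_
    rw [hF1, Finset.mem_filter, hRR]
    exact ⟨hβ, ω, hlt⟩
  have K2 : ∀ U, Odd #U → ∀ ω,
      |∑ S, kap (J β) (Z β) (fun x δ => (ν x δ).comp T) S U * walsh S ω| ≤ 4 * (B1 * B2) := by
    intro U hU ω
    by_contra hlt
    rw [not_le] at hlt
    refine hβ2 U ?_
    rw [hF2]
    simp only [if_pos hU]
    rw [Finset.mem_filter, mul_assoc R B1 B2, hRR]
    exact ⟨hβ, ω, hlt⟩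
  have K3 : ∀ A, |beta (J β) (Z β) (fun x δ => (ν x δ).comp T) A| ≤ 4 * (B1 * B2) := by
    intro A
    by_contra hlt
    rw [not_le] at hlt
    refine hβ3 ?_
    rw [hF3, Finset.mem_filter, mul_assoc R B1 B2, hRR]
    exact ⟨hβ, A, hlt⟩
  have hνo' : ∀ (x : Fin M' → Fin D → ℤˣ) (δ : Fin M' → ℤˣ),
      (ν x (-δ)).comp T = -((ν x δ).comp T) := by
    intro x δ
    rw [hνo]
    rfl
  have hνk' : ∀ (x : Fin M' → Fin D → ℤˣ) (k : Fin M'),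
      wc {k} (fun δ => (ν x δ).comp T) = (θ (x k)).comp T := by
    intro x k
    rw [wc_comp2, hνk]
  have hζη : ∀ a, (wc {a} (Z β)) (avg fun x : Fin D → ℤˣ =>
      sg (chi (J β a) x) • (θ x).comp T) = 1 := by
    intro a
    rw [hZk β a]
    exact he2 β hβ a
  have hgen : ∀ g : Fin M' → Finset (Fin M), Two g →
      ‖nh (fun x δ => (ν x δ).comp T) (oddU g) (JG (J β) g)‖ ≤ e' := by
    intro g hg
    have h1 := (hJ β hβ).2.2.2 g hg
    rw [hBad, Finset.mem_filter, not_and] at h1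
    have h2 := h1 (Finset.mem_univ _)
    push Not at h2
    exact h2 (oddU g)
  have hyp := vhyp' (ν := fun x δ => (ν x δ).comp T) (η := fun x => (θ x).comp T) hζη (hZ β)
    he'0.le (hZo β) hνo' hνk' hgen K1 (by positivity) K2 K3
  refine hcore _ _ (hyp.mono ?_ ?_ ?_)
  · rw [hB1]
    linarith
  · have h1 : 4 * (B1 * B2) = 72 * (C ^ 2 * (a * a')) := by rw [hB1, hB2]; ring
    have h2 : 24 * C * a * (24 * C * a') = 576 * (C ^ 2 * (a * a')) := by ring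
    rw [h1, h2]
    have : 0 ≤ C ^ 2 * (a * a') := by positivity
    linarith
  · have h0 : ((2:ℝ) ^ M) ^ M' * (R * B1 * e') = B1 := by
      rw [← hE, he']
      field_simp
    rw [h0]
    have h1 : 4 * (B1 * B2) + B1 = 72 * (C ^ 2 * (a * a')) + 6 * (C * a) := by
      rw [hB1, hB2]; ring
    have h2 : 24 * C * a * (24 * C * a') = 576 * (C ^ 2 * (a * a')) := by ring
    rw [h1, h2]
    have h3 : C * a ≤ C ^ 2 * (a * a') := by
      have h4 : C * a * 1 ≤ C * a * (C * a') :=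
        mul_le_mul_of_nonneg_left (one_le_mul_of_one_le_of_one_le hC ha1') (by positivity)
      calc C * a = C * a * 1 := (mul_one _).symm
        _ ≤ C * a * (C * a') := h4
        _ = C ^ 2 * (a * a') := by ring
    have : 0 ≤ C ^ 2 * (a * a') := by positivity
    linarith

end Vale.Agent.N111
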