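import Vale.Agent.N111.Count

/-!
The operator `M_v ⊗ V` on `ℓ₂`-sums, for operators between two spaces.
-/

set_option linter.unusedSectionVars false

namespace Vale.Agent.N111

open Finset Vale.Agent.P111 Vale.Agent.P111.HM Vale.Agent.P111.EZ

section

variable {E F : Type*} [NormedAddCommGroup E] [NormedSpace ℝ E] [NormedAddCommGroup F]
  [NormedSpace ℝ F] {I Λ : Type} [Fintype I] [DecidableEq I] [Fintype Λ] [DecidableEq Λ]

theorem map_mm (L : E →L[ℝ] F) (m : Finset I → ℝ) (f : (I → ℤˣ) → E) (σ : I → ℤˣ) :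
    L (mm m f σ) = mm m (fun ω => L (f ω)) σ := by
  simp only [mm, map_sum, map_smul, map_wc]

theorem pairing_mm (V : E →L[ℝ] F) (m : Finset I → ℝ) (f : (I → ℤˣ) → E)
    (g : (I → ℤˣ) → (F →L[ℝ] ℝ)) :
    ∑ S : Finset I, m S * (wc S g) (V (wc S f)) =
      avg fun η => g η (mm m (fun ω => V (f ω)) η) := by
  have h3 := sum_wc_pairing (V := ContinuousLinearMap.id ℝ F) (mm m fun ω => V (f ω)) g
  simp only [ContinuousLinearMap.id_apply] at h3
  rw [← h3]
  refine Finset.sum_congr rfl fun S _ => ?_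
  rw [wc_mm, map_smul, smul_eq_mul, map_wc V]

theorem nrm_of_bd {V : E →L[ℝ] F} {m : Finset I → ℝ} {B : ℝ} (hB : 0 ≤ B) (h : Bd V m B)
    (f : (I → ℤˣ) → E) : nrm (mm m fun ω => V (f ω)) ≤ B * nrm f := by
  set H := mm m fun ω => V (f ω) with hH
  set b := avg fun η => ‖H η‖ ^ 2 with hb
  have hb0 : 0 ≤ b := avg_nonneg fun _ => sq_nonneg _
  choose g hg1 hg2 using fun η : I → ℤˣ => exists_norming (H η)
  have h1 := h f g
  rw [pairing_mm, avg_congr hg2, abs_of_nonneg hb0] at h1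
  have h6 : nrm g ≤ √b := by
    apply Real.sqrt_le_sqrt
    exact avg_mono fun ε => by gcongr; exact hg1 ε
  change √b ≤ _
  apply sqrt_le_of_forall hb0 (mul_nonneg hB (nrm_nonneg f))
  intro δ hδ0 _
  calc (1 - δ) * b ≤ b := by nlinarith
    _ ≤ B * (nrm f * nrm g) := h1
    _ ≤ B * (nrm f * √b) := by
        have := nrm_nonneg f
        gcongr
    _ = B * nrm f * √b := by ring

theorem bd_of_nrm2 {V : E →L[ℝ] F} {m : Finset I → ℝ} {B : ℝ}
    (h : ∀ f : (I → ℤˣ) → E, nrm (mm m fun ω => V (f ω)) ≤ B * nrm f) : Bd V m B := by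
  intro f g
  rw [pairing_mm]
  have h4 := abs_avg_pairing_le (V := ContinuousLinearMap.id ℝ F) (mm m fun ω => V (f ω)) g
  simp only [ContinuousLinearMap.id_apply] at h4
  refine h4.trans ?_
  have h5 : ‖ContinuousLinearMap.id ℝ F‖ ≤ 1 := ContinuousLinearMap.norm_id_le
  calc ‖ContinuousLinearMap.id ℝ F‖ * (nrm (mm m fun ω => V (f ω)) * nrm g) ≤
        1 * (nrm (mm m fun ω => V (f ω)) * nrm g) :=
        mul_le_mul_of_nonneg_right h5 (mul_nonneg (nrm_nonneg _) (nrm_nonneg _))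
    _ ≤ 1 * (B * nrm f * nrm g) := by
        have := nrm_nonneg g
        gcongr
        exact h f
    _ = _ := by ring

theorem wc_disjSum (G : (Λ → ℤˣ) → (I → ℤˣ) → E) (A : Finset Λ) (T : Finset I) :
    (wc (A.disjSum T) fun ω : Λ ⊕ I → ℤˣ =>
      G (fun l => ω (Sum.inl l)) fun i => ω (Sum.inr i)) = wc A fun σ => wc T (G σ) := by
  simp only [wc, walsh_disjSum]
  rw [avg_sum_type (fun σ ζ => (walsh A σ * walsh T ζ) • G σ ζ)]
  refine avg_congr fun σ => ?_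
  rw [← avg_smul]
  exact avg_congr fun ζ => by rw [smul_smul]

theorem mm_two (m : Finset Λ → ℝ) (v : Finset I → ℝ) (G : (Λ → ℤˣ) → (I → ℤˣ) → E)
    (ω : Λ ⊕ I → ℤˣ) :
    mm (fun S : Finset (Λ ⊕ I) => m S.toLeft * v S.toRight)
      (fun ζ : Λ ⊕ I → ℤˣ => G (fun l => ζ (Sum.inl l)) fun i => ζ (Sum.inr i)) ω =
      mm m (fun σ => mm v (G σ) fun i => ω (Sum.inr i)) fun l => ω (Sum.inl l) := by
  simp only [mm]
  rw [← Equiv.sum_comp (Finset.sumEquiv (α := Λ) (β := I)).symm.toEquiv, Fintype.sum_prod_type]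
  refine Finset.sum_congr rfl fun A _ => ?_
  rw [wc_sum, Finset.smul_sum]
  refine Finset.sum_congr rfl fun T _ => ?_
  have h3 : (Finset.sumEquiv (α := Λ) (β := I)).symm.toEquiv (A, T) = A.disjSum T := rfl
  rw [h3, Finset.toLeft_disjSum, Finset.toRight_disjSum, wc_disjSum, walsh_disjSum, wc_smul,
    smul_smul]
  congr 1
  ring

end

section

variable {X Y : Type*} [NormedAddCommGroup X] [NormedSpace ℝ X] [NormedAddCommGroup Y]
  [NormedSpace ℝ Y] {I : Type} [Fintype I] [DecidableEq I] {N : ℕ}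

/-- The operator `M_v ⊗ V` on the `ℓ₂`-sums. -/
noncomputable def T2 (V : X →L[ℝ] Y) (v : Finset I → ℝ) (N : ℕ) :
    PiLp 2 (fun _ : Om I N => X) →L[ℝ] PiLp 2 (fun _ : Om I N => Y) :=
  ((PiLp.continuousLinearEquiv 2 ℝ (fun _ : Om I N => Y)).symm : _ →L[ℝ] _) ∘L
    (ContinuousLinearMap.pi fun p : Om I N =>
      ∑ S : Finset I, (v S * walsh S p.1) • (V ∘L wcO X S p.2)) ∘L
      ((PiLp.continuousLinearEquiv 2 ℝ (fun _ : Om I N => X)) : _ →L[ℝ] _)

theorem T2_apply (V : X →L[ℝ] Y) (v : Finset I → ℝ) (h : PiLp 2 (fun _ : Om I N => X))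
    (p : Om I N) : T2 V v N h p =
      ∑ S : Finset I, (v S * walsh S p.1) • V (wc S fun ω => h (ω, p.2)) := by
  simp only [T2, ContinuousLinearMap.comp_apply, ContinuousLinearEquiv.coe_coe,
    PiLp.coe_symm_continuousLinearEquiv, PiLp.coe_continuousLinearEquiv]
  simp [wcO_apply]

theorem T2_mm (V : X →L[ℝ] Y) (v : Finset I → ℝ) (h : PiLp 2 (fun _ : Om I N => X))
    (p : Om I N) : T2 V v N h p = mm v (fun ω => V (h (ω, p.2))) p.1 := by
  rw [T2_apply]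
  simp only [mm, map_wc]

theorem nrm_sq_pilp {Z : Type*} [NormedAddCommGroup Z] {Λ : Type} [Fintype Λ] [DecidableEq Λ]
    (f : (Λ → ℤˣ) → PiLp 2 (fun _ : Om I N => Z)) :
    nrm f ^ 2 = ∑ x : I → Fin N → ℤˣ, (Fintype.card (I → ℤˣ) : ℝ) *
      nrm (fun ζ : Λ ⊕ I → ℤˣ => f (fun l => ζ (Sum.inl l)) (fun i => ζ (Sum.inr i), x)) ^ 2 := by
  rw [nrm_sq]
  have h1 : ∀ σ, ‖f σ‖ ^ 2 = ∑ x : I → Fin N → ℤˣ, (Fintype.card (I → ℤˣ) : ℝ) *
      avg fun ω : I → ℤˣ => ‖f σ (ω, x)‖ ^ 2 := by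
    intro σ
    rw [PiLp.norm_sq_eq_of_L2, Fintype.sum_prod_type_right]
    exact Finset.sum_congr rfl fun x _ => sum_eq_card_mul_avg _
  rw [avg_congr h1, avg_sum]
  refine Finset.sum_congr rfl fun x _ => ?_
  rw [avg_mul_left, nrm_sq, avg_sum_type (fun σ ω => ‖f σ (ω, x)‖ ^ 2)]

/-- Multipliers for `T2` are multipliers in two variables for `V`. -/
theorem T2_bd {V : X →L[ℝ] Y} {v : Finset I → ℝ} {Λ : Type} [Fintype Λ] [DecidableEq Λ]
    {m : Finset Λ → ℝ} {B : ℝ} (hB : 0 ≤ B)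
    (h : Bd V (fun S : Finset (Λ ⊕ I) => m S.toLeft * v S.toRight) B) (N : ℕ) :
    Bd (T2 V v N) m B := by
  refine bd_of_nrm2 fun f => ?_
  refine HM.le_of_sq_le_sq ?_ (mul_nonneg hB (nrm_nonneg f))
  rw [mul_pow, nrm_sq_pilp, nrm_sq_pilp f, Finset.mul_sum]
  refine Finset.sum_le_sum fun x _ => ?_
  rw [mul_left_comm, ← mul_pow]
  refine mul_le_mul_of_nonneg_left ?_ (Nat.cast_nonneg _)
  refine pow_le_pow_left₀ (nrm_nonneg _) ?_ 2
  have h1 := nrm_of_bd hB h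
    (fun ζ : Λ ⊕ I → ℤˣ => f (fun l => ζ (Sum.inl l)) (fun i => ζ (Sum.inr i), x))
  refine le_trans (le_of_eq ?_) h1
  congr 1
  funext ζ
  rw [mm_two m v (fun σ ω => V (f σ (ω, x))) ζ]
  have h2 := map_mm (PiLp.proj (𝕜 := ℝ) 2 (fun _ : Om I N => Y) (fun i => ζ (Sum.inr i), x)) m
    (fun σ => T2 V v N (f σ)) (fun l => ζ (Sum.inl l))
  refine h2.trans ?_
  congr 1
  funext σ
  exact T2_mm V v (f σ) _

theorem T2_norm {V : X →L[ℝ] Y} {v : Finset I → ℝ} (hv : Bd V v 1) (N : ℕ) :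
    ‖T2 V v N‖ ≤ 1 := by
  refine ContinuousLinearMap.opNorm_le_bound _ zero_le_one fun h => ?_
  rw [one_mul]
  refine HM.le_of_sq_le_sq ?_ (norm_nonneg _)
  rw [PiLp.norm_sq_eq_of_L2, PiLp.norm_sq_eq_of_L2, Fintype.sum_prod_type_right,
    Fintype.sum_prod_type_right]
  refine Finset.sum_le_sum fun x _ => ?_
  have h0 := nrm_of_bd zero_le_one hv fun ω => h (ω, x)
  rw [one_mul] at h0
  have h1 := pow_le_pow_left₀ (nrm_nonneg _) h0 2
  rw [nrm_sq, nrm_sq] at h1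
  have h2 := mul_le_mul_of_nonneg_left h1
    (by positivity : (0:ℝ) ≤ (Fintype.card (I → ℤˣ) : ℝ))
  rw [← sum_eq_card_mul_avg, ← sum_eq_card_mul_avg] at h2
  refine le_trans (le_of_eq ?_) h2
  refine Finset.sum_congr rfl fun ω _ => ?_
  rw [T2_mm]

theorem T2_ek (V : X →L[ℝ] Y) (v : Finset I → ℝ) (J : Finset I) (f : (I → ℤˣ) → X) (k : Fin N)
    (p : Om I N) : T2 V v N (ek J f k) p =
      ∑ S : Finset I, (v S * walsh S p.1 * walsh (S ∩ J) (fun i => p.2 i k)) • V (wc S f) := by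
  rw [T2_apply]
  refine Finset.sum_congr rfl fun S _ => ?_
  have h1 : (wc S fun ω => (ek J f k) (ω, p.2)) =
      walsh (S ∩ J) (fun i => p.2 i k) • wc S f := by
    rw [← walsh_pj]
    exact wc_translate S f (pj J fun i => p.2 i k)
  rw [h1, map_smul, smul_smul]

theorem th_T2_ek (V : X →L[ℝ] Y) (v : Finset I → ℝ) (J : Finset I) (β : ℝ)
    (f : (I → ℤˣ) → X) (g : (I → ℤˣ) → (Y →L[ℝ] ℝ)) (δ : Fin N → ℤˣ) (k : Fin N) :
    th J β g δ (T2 V v N (ek J f k)) = √(Fintype.card (Om I N) : ℝ) *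
      ∑ S : Finset I, v S * (wc S g) (V (wc S f)) * (β * sg (δ k)) ^ #(S ∩ J) := by
  rw [th_apply]
  congr 1
  have h1 : ∀ p : Om I N, Gd J β g δ p (T2 V v N (ek J f k) p) =
      ∑ S : Finset I, avg fun y => v S * (dens J β δ p.2 y *
        walsh (S ∩ J) (fun i => p.2 i k) * (walsh S p.1 * g (pj J y * p.1) (V (wc S f)))) := by
    intro p
    rw [Gd_apply, ← avg_sum]
    refine avg_congr fun y => ?_
    rw [T2_ek, map_sum, Finset.mul_sum]
    refine Finset.sum_congr rfl fun S _ => ?_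
    rw [map_smul, smul_eq_mul]
    ring
  simp only [h1]
  rw [avg_sum]
  refine Finset.sum_congr rfl fun S _ => ?_
  rw [avg_prod, avg_comm]
  have h2 : ∀ x : I → Fin N → ℤˣ, (avg fun ω : I → ℤˣ => avg fun y => v S * (dens J β δ x y *
        walsh (S ∩ J) (fun i => x i k) * (walsh S ω * g (pj J y * ω) (V (wc S f))))) =
      v S * (wc S g) (V (wc S f)) * avg fun y => dens J β δ x y *
        (walsh (S ∩ J) (fun i => x i k) * walsh (S ∩ J) y) := by
    intro x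
    rw [avg_comm, ← avg_mul_left]
    refine avg_congr fun y => ?_
    rw [avg_mul_left, avg_mul_left]
    have h3 : (avg fun ω : I → ℤˣ => walsh S ω * g (pj J y * ω) (V (wc S f))) =
        walsh (S ∩ J) y * (wc S g) (V (wc S f)) := by
      have h4 := wc_translate S (fun ω => g ω (V (wc S f))) (pj J y)
      rw [walsh_pj] at h4
      rw [wc_apply]
      simpa only [wc, smul_eq_mul] using h4
    rw [h3]
    ring
  simp only [h2]
  rw [avg_mul_left, avg_dens_walsh J (S ∩ J) Finset.inter_subset_right]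

/-- The Rademacher coefficients of the system are large. -/
theorem coef_ge2 {V : X →L[ℝ] Y} {v : Finset I → ℝ} {J : Finset I} {β : ℝ}
    {f : (I → ℤˣ) → X} {g : (I → ℤˣ) → (Y →L[ℝ] ℝ)} (hf : (avg fun ω => ‖f ω‖ ^ 2) ≤ 1)
    (k : Fin N) :
    |∑ S : Finset I, if Odd #(S ∩ J) then v S * (wc S g) (V (wc S f)) * β ^ #(S ∩ J) else 0| ≤
      ‖avg fun δ : Fin N → ℤˣ => sg (δ k) • (th J β g δ).comp (T2 V v N)‖ := by
  set A := avg fun δ : Fin N → ℤˣ => sg (δ k) • (th J β g δ).comp (T2 V v N) with hA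
  have hc : (0:ℝ) < √(Fintype.card (Om I N) : ℝ) :=
    Real.sqrt_pos.2 (by exact_mod_cast Fintype.card_pos)
  have h1 : A (ek J f k) = √(Fintype.card (Om I N) : ℝ) *
      ∑ S : Finset I, if Odd #(S ∩ J) then v S * (wc S g) (V (wc S f)) * β ^ #(S ∩ J) else 0 := by
    rw [hA, avg_apply]
    have h2 : ∀ δ : Fin N → ℤˣ, (sg (δ k) • (th J β g δ).comp (T2 V v N)) (ek J f k) =
        √(Fintype.card (Om I N) : ℝ) * ∑ S : Finset I, v S * (wc S g) (V (wc S f)) *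
          (sg (δ k) * (β * sg (δ k)) ^ #(S ∩ J)) := by
      intro δ
      have h3 : (sg (δ k) • (th J β g δ).comp (T2 V v N)) (ek J f k) =
          sg (δ k) * th J β g δ (T2 V v N (ek J f k)) := rfl
      rw [h3, th_T2_ek, mul_left_comm, Finset.mul_sum]
      congr 1
      exact Finset.sum_congr rfl fun S _ => by ring
    simp only [h2]
    rw [avg_mul_left, avg_sum]
    congr 1
    refine Finset.sum_congr rfl fun S _ => ?_
    rw [avg_mul_left, avg_sg_pow]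
    split_ifs <;> simp
  have h4 := A.le_opNorm (ek J f k)
  rw [h1, norm_mul, Real.norm_eq_abs, Real.norm_eq_abs, abs_of_pos hc] at h4
  have h5 : ‖A‖ * ‖ek J f k‖ ≤ ‖A‖ * √(Fintype.card (Om I N) : ℝ) :=
    mul_le_mul_of_nonneg_left (ek_norm hf k) (norm_nonneg _)
  have h6 := h4.trans h5
  rw [mul_comm (‖A‖)] at h6
  exact le_of_mul_le_mul_left h6 hc

theorem phi_le2 {V : X →L[ℝ] Y} {v : Finset I → ℝ}
    (hv : Bd V v 1) (J : Finset I) {f : (I → ℤˣ) → X} {g : (I → ℤˣ) → (Y →L[ℝ] ℝ)}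
    (hf : nrm f ≤ 1) (hg : nrm g ≤ 1) (x : I → ℤˣ) :
    |∑ S, v S * (wc S g) (V (wc S f)) * walsh (S ∩ J) x| ≤ 1 := by
  have h1 := hv (fun ω => f (pj J x * ω)) g
  have h2 : nrm (fun ω => f (pj J x * ω)) = nrm f :=
    nrm_comp_equiv (Equiv.mulLeft (pj J x)) f
  rw [h2, one_mul] at h1
  have h3 : ∑ S, v S * (wc S g) (V (wc S fun ω => f (pj J x * ω))) =
      ∑ S, v S * (wc S g) (V (wc S f)) * walsh (S ∩ J) x := by
    refine Finset.sum_congr rfl fun S _ => ?_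
    rw [wc_translate, walsh_pj, map_smul, map_smul, smul_eq_mul]
    ring
  rw [h3] at h1
  refine h1.trans ?_
  exact mul_le_one₀ hf (nrm_nonneg g) hg

end

end Vale.Agent.N111
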